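import Crest.Agent.H0085.Junta

set_option autoImplicit false
open Finset BigOperators

namespace Crest.Agent.H0085

section
variable {ι : Type} [Fintype ι] [DecidableEq ι]

omit [Fintype ι] [DecidableEq ι] in
lemma chi_mul_self (T : Finset ι) (x : ι → Bool) : chi T x * chi T x = 1 := by
  unfold chi
  rw [← prod_mul_distrib]
  exact prod_eq_one fun i _ => sg_mul_self _

lemma chi_orth (T U : Finset ι) :
    ∑ x, chi T x * chi U x = if T = U then 2 ^ Fintype.card ι else 0 := by
  split_ifs with h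
  · subst h
    simp [chi_mul_self]
  · have : ∃ i, (i ∈ T ∧ i ∉ U) ∨ (i ∉ T ∧ i ∈ U) := by
      by_contra hcon
      push Not at hcon
      apply h
      ext i
      have := hcon i
      tauto
    obtain ⟨i, hi | hi⟩ := this
    · refine sum_eq_zero_of_flip i _ fun x => ?_
      rw [chi_flip_of_mem hi.1, chi_flip_of_not_mem hi.2]; ring
    · refine sum_eq_zero_of_flip i _ fun x => ?_
      rw [chi_flip_of_mem hi.2, chi_flip_of_not_mem hi.1]; ring

def syn (c : Finset ι → ℝ) (x : ι → Bool) : ℝ := ∑ T, c T * chi T x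

lemma parseval (c : Finset ι → ℝ) :
    ∑ x, syn c x ^ 2 = 2 ^ Fintype.card ι * ∑ T, c T ^ 2 := by
  have h1 : ∀ x, syn c x ^ 2 = ∑ T, ∑ U, c T * c U * (chi T x * chi U x) := by
    intro x
    rw [sq, syn, sum_mul_sum]
    exact sum_congr rfl fun T _ => sum_congr rfl fun U _ => by ring
  simp only [h1]
  rw [sum_comm, mul_sum]
  refine sum_congr rfl fun T _ => ?_
  rw [sum_comm]
  simp only [← mul_sum, chi_orth, mul_ite, mul_zero, sum_ite_eq, mem_univ, if_true]
  ring

def tog (i : ι) (T : Finset ι) : Finset ι := if i ∈ T then T.erase i else insert i T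

omit [Fintype ι] in
lemma tog_tog (i : ι) (T : Finset ι) : tog i (tog i T) = T := by
  unfold tog
  by_cases h : i ∈ T
  · simp [h]
  · simp [h]

omit [Fintype ι] in
lemma sg_mul_chi (i : ι) (T : Finset ι) (x : ι → Bool) :
    sg (x i) * chi T x = chi (tog i T) x := by
  unfold tog chi
  by_cases h : i ∈ T
  · simp only [h, if_true]
    rw [← mul_prod_erase T _ h, ← mul_assoc, sg_mul_self, one_mul]
  · simp only [h, if_false]
    rw [prod_insert h]

def togEquiv (i : ι) : Finset ι ≃ Finset ι where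
  toFun := tog i
  invFun := tog i
  left_inv := tog_tog i
  right_inv := tog_tog i

lemma sum_mul_syn (c : Finset ι → ℝ) (x : ι → Bool) :
    (∑ i, sg (x i)) * syn c x = syn (fun U => ∑ i, c (tog i U)) x := by
  unfold syn
  simp only [sum_mul]
  rw [sum_comm (s := (univ : Finset (Finset ι))) (t := (univ : Finset ι))]
  refine sum_congr rfl fun i _ => ?_
  rw [mul_sum]
  rw [← Equiv.sum_comp (togEquiv i)]
  refine sum_congr rfl fun U _ => ?_
  change sg (x i) * (c (tog i U) * chi (tog i U) x) = _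
  rw [mul_left_comm, sg_mul_chi, tog_tog]

lemma sum_tog (γ : ℕ → ℝ) (U : Finset ι) :
    ∑ i, γ (tog i U).card
      = U.card * γ (U.card - 1) + ((Fintype.card ι : ℝ) - U.card) * γ (U.card + 1) := by
  rw [← sum_add_sum_compl U]
  congr 1
  · rw [← nsmul_eq_mul, ← sum_const]
    exact sum_congr rfl fun i hi => by simp [tog, hi]
  · have : ((Fintype.card ι : ℝ) - U.card) = ((Uᶜ).card : ℝ) := by
      rw [card_compl, Nat.cast_sub (card_le_univ U)]
    rw [this, ← nsmul_eq_mul, ← sum_const]
    exact sum_congr rfl fun i hi => by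
      have : i ∉ U := by simpa using hi
      simp [tog, this]

omit [DecidableEq ι] in
lemma sum_card_fun (F : ℕ → ℝ) :
    ∑ T : Finset ι, F T.card
      = ∑ j ∈ range (Fintype.card ι + 1), ((Fintype.card ι).choose j : ℝ) * F j := by
  have := Finset.sum_powerset_apply_card F (x := (univ : Finset ι))
  simpa using this

omit [DecidableEq ι] in
lemma card_low_le (m : ℕ) :
    ((univ.filter (fun T : Finset ι => T.card ≤ m)).card : ℝ) ≤ (Fintype.card ι + 1) ^ m := by
  set n := Fintype.card ι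
  have h1 : ((univ.filter (fun T : Finset ι => T.card ≤ m)).card : ℝ)
      = ∑ T : Finset ι, (fun j => if j ≤ m then (1 : ℝ) else 0) T.card := by
    simp
  rw [h1, sum_card_fun (fun j => if j ≤ m then (1 : ℝ) else 0)]
  have h2 : ∑ j ∈ range (n + 1), (n.choose j : ℝ) * (if j ≤ m then (1 : ℝ) else 0)
      ≤ ∑ j ∈ range (m + 1), (n : ℝ) ^ j := by
    simp only [mul_ite, mul_one, mul_zero]
    rw [← sum_filter]
    refine (sum_le_sum fun j _ => (show (n.choose j : ℝ) ≤ (n : ℝ) ^ j by
      exact_mod_cast Nat.choose_le_pow n j)).trans ?_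
    refine sum_le_sum_of_subset_of_nonneg ?_ fun _ _ _ => by positivity
    intro j hj
    simp only [mem_filter, mem_range] at hj ⊢
    omega
  refine h2.trans ?_
  clear h1 h2
  induction m with
  | zero => simp
  | succ m ih =>
    rw [sum_range_succ, pow_succ (n + 1 : ℝ), pow_succ]
    have : (n : ℝ) ^ m ≤ (n + 1) ^ m := pow_le_pow_left₀ (by positivity) (by linarith) m
    nlinarith [(Nat.cast_nonneg n : (0 : ℝ) ≤ n)]

end

/-- the recurrence for the coefficients -/
noncomputable def gseq (n : ℕ) : ℕ → ℝ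
  | 0 => 1
  | i + 1 => - gseq n i * (2 * i + 1) / (n - 2 * i - 1)

noncomputable def gam (n r j : ℕ) : ℝ :=
  if j % 2 = 0 ∧ j / 2 < r then gseq n (j / 2) * (1 - ((j / 2 : ℕ) : ℝ) / r) else 0

noncomputable def useq (n i : ℕ) : ℝ := n.choose (2 * i) * gseq n i ^ 2

lemma useq_nonneg (n i : ℕ) : 0 ≤ useq n i := by unfold useq; positivity

lemma choose_succ_real (n k : ℕ) (h : k ≤ n) :
    (n.choose (k + 1) : ℝ) * (k + 1) = n.choose k * (n - k) := by
  have := Nat.choose_succ_right_eq n k
  have h2 : ((n.choose (k + 1) * (k + 1) : ℕ) : ℝ) = ((n.choose k * (n - k) : ℕ) : ℝ) := by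
    rw [this]
  push_cast [Nat.cast_sub h] at h2
  exact h2

lemma useq_succ_le (n i : ℕ) (h : 4 * i + 2 ≤ n) : useq n (i + 1) ≤ useq n i := by
  have h' : (4 * i + 2 : ℝ) ≤ n := by exact_mod_cast h
  have hi : (0 : ℝ) ≤ i := Nat.cast_nonneg i
  have e1 := choose_succ_real n (2 * i) (by omega)
  have e2 := choose_succ_real n (2 * i + 1) (by omega)
  push_cast at e1 e2
  have hp : (0 : ℝ) < n - 2 * i - 1 := by linarith
  have e3 : useq n (i + 1) * ((2 * i + 2) * (n - 2 * i - 1))
      = useq n i * ((2 * i + 1) * (n - 2 * i)) := by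
    unfold useq
    have : 2 * (i + 1) = 2 * i + 1 + 1 := by ring
    rw [this, gseq]
    have e4 : (n.choose (2 * i + 1 + 1) : ℝ) * (2 * i + 2)
        = n.choose (2 * i + 1) * (n - 2 * i - 1) := by linarith
    calc _ = ((n.choose (2 * i + 1 + 1) : ℝ) * (2 * i + 2)) * (gseq n i ^ 2 * (2 * i + 1) ^ 2)
          / (n - 2 * i - 1) := by field_simp
      _ = (n.choose (2 * i + 1) * (2 * i + 1)) * (gseq n i ^ 2 * (2 * i + 1)) := by
          rw [e4]; field_simp
      _ = _ := by rw [e1]; ring
  have hpos : (0 : ℝ) < (2 * i + 2) * (n - 2 * i - 1) := by positivity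
  have hle : (2 * i + 1) * (n - 2 * i) ≤ ((2 * i + 2) * (n - 2 * i - 1) : ℝ) := by nlinarith
  have := mul_le_mul_of_nonneg_left hle (useq_nonneg n i)
  rw [← e3] at this
  exact le_of_mul_le_mul_right this hpos

lemma useq_add_le (n s i : ℕ) (h : 4 * (s + i) ≤ n) : useq n (i + s) ≤ useq n i := by
  induction s with
  | zero => simp
  | succ s ih =>
    exact (useq_succ_le n (i + s) (by omega)).trans (ih (by omega))

lemma gam_two_mul (n r i : ℕ) (hr : 0 < r) (h : i ≤ r) :
    gam n r (2 * i) = gseq n i * (1 - (i : ℝ) / r) := by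
  unfold gam
  have e : 2 * i / 2 = i := by omega
  rw [e]
  by_cases h' : i < r
  · simp [h']
  · have : i = r := by omega
    subst this
    have : (i : ℝ) ≠ 0 := by positivity
    simp [this]

lemma lower_A (n s : ℕ) (hs : 0 < s) (hn : 8 * s ≤ n) :
    (∑ i ∈ range s, useq n i) / 4
      ≤ ∑ j ∈ range (n + 1), (n.choose j : ℝ) * gam n (2 * s) j ^ 2 := by
  have h1 : ∑ j ∈ (range s).image (fun i => 2 * i), (n.choose j : ℝ) * gam n (2 * s) j ^ 2
      ≤ ∑ j ∈ range (n + 1), (n.choose j : ℝ) * gam n (2 * s) j ^ 2 := by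
    refine sum_le_sum_of_subset_of_nonneg ?_ fun _ _ _ => by positivity
    intro j hj
    simp only [mem_image, mem_range] at hj ⊢
    omega
  refine le_trans ?_ h1
  rw [sum_image (fun a _ b _ h => by omega), sum_div]
  refine sum_le_sum fun i hi => ?_
  have hi' : i < s := mem_range.1 hi
  rw [gam_two_mul n (2 * s) i (by omega) (by omega), mul_pow, ← mul_assoc]
  change useq n i / 4 ≤ useq n i * _
  have h2 : (1 / 2 : ℝ) ≤ 1 - (i : ℝ) / ((2 * s : ℕ) : ℝ) := by
    have : (i : ℝ) / ((2 * s : ℕ) : ℝ) ≤ 1 / 2 := by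
      rw [div_le_div_iff₀ (by positivity) (by norm_num)]
      have : (i : ℝ) ≤ s := by exact_mod_cast hi'.le
      push_cast; linarith
    linarith
  have h3 : (1 / 4 : ℝ) ≤ (1 - (i : ℝ) / ((2 * s : ℕ) : ℝ)) ^ 2 := by nlinarith
  have := mul_le_mul_of_nonneg_left h3 (useq_nonneg n i)
  linarith

lemma upper_B (n r : ℕ) (hr : 0 < r) (hn : 4 * r ≤ n) :
    ∑ j ∈ range (n + 1), (n.choose j : ℝ) *
        (j * gam n r (j - 1) + ((n : ℝ) - j) * gam n r (j + 1)) ^ 2
      ≤ 2 * n / r * ∑ i ∈ range r, useq n i := by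
  have h1 : ∑ j ∈ (range r).image (fun i => 2 * i + 1), (n.choose j : ℝ) *
        (j * gam n r (j - 1) + ((n : ℝ) - j) * gam n r (j + 1)) ^ 2
      = ∑ j ∈ range (n + 1), (n.choose j : ℝ) *
        (j * gam n r (j - 1) + ((n : ℝ) - j) * gam n r (j + 1)) ^ 2 := by
    refine sum_subset ?_ ?_
    · intro j hj
      simp only [mem_image, mem_range] at hj ⊢
      omega
    · intro j _ hj
      simp only [mem_image, mem_range, not_exists, not_and] at hj
      have e2 : gam n r (j + 1) = 0 := by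
        unfold gam
        rw [if_neg]
        rintro ⟨a, b⟩
        exact hj (j / 2) (by omega) (by omega)
      have e1 : (j : ℝ) * gam n r (j - 1) = 0 := by
        by_cases h0 : j = 0
        · simp [h0]
        unfold gam
        rw [if_neg, mul_zero]
        rintro ⟨a, b⟩
        exact hj (j / 2) (by omega) (by omega)
      rw [e1, e2]; simp
  rw [← h1, sum_image (fun a _ b _ h => by omega), mul_sum]
  refine sum_le_sum fun i hi => ?_
  have hi' : i < r := mem_range.1 hi
  have e1 : 2 * i + 1 - 1 = 2 * i := by omega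
  have e2 : 2 * i + 1 + 1 = 2 * (i + 1) := by omega
  have hr' : (0 : ℝ) < r := by positivity
  have hir : (i : ℝ) + 1 ≤ r := by exact_mod_cast hi'
  have hn' : (4 * r : ℝ) ≤ n := by exact_mod_cast hn
  have hi0 : (0 : ℝ) ≤ i := Nat.cast_nonneg i
  have hp : (0 : ℝ) < n - 2 * i - 1 := by linarith
  rw [e1, e2, gam_two_mul n r i hr hi'.le, gam_two_mul n r (i + 1) hr hi', gseq]
  have e3 : ((2 * i + 1 : ℕ) : ℝ) * (gseq n i * (1 - (i : ℝ) / r)) +
      ((n : ℝ) - ((2 * i + 1 : ℕ) : ℝ)) *
        (- gseq n i * (2 * i + 1) / (n - 2 * i - 1) * (1 - ((i + 1 : ℕ) : ℝ) / r))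
      = (2 * i + 1) * gseq n i / r := by
    push_cast
    have : (n : ℝ) - (2 * i + 1) = n - 2 * i - 1 := by ring
    rw [this]
    field_simp
    ring
  rw [e3]
  have e4 := choose_succ_real n (2 * i) (by omega)
  push_cast at e4
  have e5 : (n.choose (2 * i + 1) : ℝ) * ((2 * i + 1) * gseq n i / r) ^ 2
      = useq n i * ((2 * i + 1) * (n - 2 * i)) / r ^ 2 := by
    unfold useq
    calc _ = ((n.choose (2 * i + 1) : ℝ) * (2 * i + 1)) * ((2 * i + 1) * gseq n i ^ 2) / r ^ 2 := by
          ring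
      _ = _ := by rw [e4]; ring
  rw [e5, div_le_iff₀ (by positivity)]
  have e6 : 2 * (n : ℝ) / r * useq n i * r ^ 2 = useq n i * ((2 * r) * n) := by
    field_simp
  rw [e6]
  refine mul_le_mul_of_nonneg_left ?_ (useq_nonneg n i)
  exact mul_le_mul (by linarith) (by linarith) (by linarith) (by linarith)

theorem exists_bump (n s : ℕ) (hs : 0 < s) (hn : 8 * s ≤ n) :
    ∃ t : (Fin n → Bool) → ℝ, t ∈ Low (Fin n) (8 * s) ∧ (∀ x, 0 ≤ t x ∧ t x ≤ 1) ∧
      2 ^ n / ((n : ℝ) + 1) ^ (4 * s) ≤ ∑ x, t x ∧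
      ∑ x, t x * (∑ i, sg (x i)) ^ 2 ≤ 8 * n / s * ∑ x, t x := by
  classical
  let c : Finset (Fin n) → ℝ := fun T => gam n (2 * s) T.card
  let A : ℝ := ∑ T, c T ^ 2
  have hA : A = ∑ j ∈ range (n + 1), (n.choose j : ℝ) * gam n (2 * s) j ^ 2 := by
    have := sum_card_fun (ι := Fin n) (fun j => gam n (2 * s) j ^ 2)
    simpa using this
  have hu0 : 1 ≤ ∑ i ∈ range s, useq n i := by
    have : useq n 0 = 1 := by simp [useq, gseq]
    rw [← this]
    exact single_le_sum (f := useq n) (fun i _ => useq_nonneg n i) (mem_range.2 hs)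
  have hAl := lower_A n s hs hn
  rw [← hA] at hAl
  have hApos : 0 < A := by linarith
  have hc0 : ∀ T : Finset (Fin n), ¬ T.card ≤ 4 * s → c T = 0 := by
    intro T hT
    simp only [c, gam]
    rw [if_neg]
    omega
  have hsyn : ∀ x, syn c x = ∑ T ∈ univ.filter (fun T : Finset (Fin n) => T.card ≤ 4 * s),
      c T * chi T x := by
    intro x
    rw [sum_filter]
    refine sum_congr rfl fun T _ => ?_
    split_ifs with h
    · rfl
    · rw [hc0 T h, zero_mul]
  have hlow : syn c ∈ Low (Fin n) (4 * s) := by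
    have : syn c = ∑ T ∈ univ.filter (fun T : Finset (Fin n) => T.card ≤ 4 * s),
        c T • chi T := by
      funext x; rw [hsyn, Finset.sum_apply]; rfl
    rw [this]
    exact Submodule.sum_mem _ fun T hT => Submodule.smul_mem _ _
      (mem_Low_of_dep T (by simpa using hT) (chi_dep T))
  set P : ℝ := ((n : ℝ) + 1) ^ (4 * s) with hP
  have hPpos : 0 < P := by positivity
  have hsup : ∀ x, syn c x ^ 2 ≤ P * A := by
    intro x
    rw [hsyn]
    refine (sq_sum_le_card_mul_sum_sq).trans ?_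
    have h1 := card_low_le (ι := Fin n) (4 * s)
    rw [Fintype.card_fin] at h1
    have h2 : ∑ T ∈ univ.filter (fun T : Finset (Fin n) => T.card ≤ 4 * s), (c T * chi T x) ^ 2
        ≤ A := by
      have : ∀ T, (c T * chi T x) ^ 2 = c T ^ 2 := by
        intro T; rw [mul_pow, sq (chi T x), chi_mul_self, mul_one]
      simp only [this]
      exact sum_le_sum_of_subset_of_nonneg (filter_subset _ _) fun _ _ _ => by positivity
    exact mul_le_mul h1 h2 (by positivity) hPpos.le
  have hsum : ∑ x, syn c x ^ 2 / (P * A) = 2 ^ n / P := by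
    rw [← sum_div, parseval, Fintype.card_fin]
    field_simp
    rfl
  refine ⟨fun x => syn c x ^ 2 / (P * A), ?_, ?_, ?_, ?_⟩
  · have h1 := mul_mem_Low hlow hlow
    have h2 : (fun x => syn c x ^ 2 / (P * A)) = (P * A)⁻¹ • (syn c * syn c) := by
      funext x; simp only [Pi.smul_apply, Pi.mul_apply, smul_eq_mul]; ring
    rw [h2]
    exact Submodule.smul_mem _ _ (Low_mono (by omega) h1)
  · intro x
    exact ⟨by positivity, (div_le_one (by positivity)).2 (hsup x)⟩
  · rw [hsum]
  · rw [hsum]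
    have h1 : ∀ x, syn c x ^ 2 / (P * A) * (∑ i, sg (x i)) ^ 2
        = syn (fun U => ∑ i, c (tog i U)) x ^ 2 / (P * A) := by
      intro x; rw [← sum_mul_syn]; ring
    simp only [h1]
    rw [← sum_div, parseval, Fintype.card_fin]
    have h2 : ∑ T : Finset (Fin n), (∑ i, c (tog i T)) ^ 2
        = ∑ j ∈ range (n + 1), (n.choose j : ℝ) *
          (j * gam n (2 * s) (j - 1) + ((n : ℝ) - j) * gam n (2 * s) (j + 1)) ^ 2 := by
      have := sum_card_fun (ι := Fin n)
        (fun j => (j * gam n (2 * s) (j - 1) + ((n : ℝ) - j) * gam n (2 * s) (j + 1)) ^ 2)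
      rw [Fintype.card_fin] at this
      rw [← this]
      refine sum_congr rfl fun T _ => ?_
      have := sum_tog (gam n (2 * s)) T
      rw [Fintype.card_fin] at this
      simp only [c, this]
    have h3 := upper_B n (2 * s) (by omega) (by omega)
    have h4 : ∑ i ∈ range (2 * s), useq n i ≤ 2 * ∑ i ∈ range s, useq n i := by
      rw [two_mul s, sum_range_add, two_mul]
      gcongr with i hi
      rw [add_comm]
      exact useq_add_le n s i (by have := mem_range.1 hi; omega)
    rw [h2]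
    have hs' : (0 : ℝ) < s := by positivity
    have h5 : 2 * (n : ℝ) / ((2 * s : ℕ) : ℝ) * ∑ i ∈ range (2 * s), useq n i
        ≤ 8 * n / s * A := by
      have e : 2 * (n : ℝ) / ((2 * s : ℕ) : ℝ) = n / s := by push_cast; field_simp
      rw [e]
      have : (0 : ℝ) ≤ n / s := by positivity
      calc _ ≤ n / s * (8 * A) := by gcongr; linarith
        _ = _ := by ring
    rw [div_le_iff₀ (by positivity)]
    calc _ ≤ 2 ^ n * (8 * n / s * A) := by gcongr; exact h3.trans h5
      _ = _ := by field_simp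

end Crest.Agent.H0085
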