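import Crest.Agent.H0085.Prob

set_option autoImplicit false
open Finset BigOperators MeasureTheory ProbabilityTheory Filter Topology

namespace Crest.Agent.H0085

/-- law of a real function under the uniform measure -/
noncomputable def law {Ω : Type} [Fintype Ω] (f : Ω → ℝ) : Measure ℝ :=
  ∑ ω, ((Fintype.card Ω : NNReal)⁻¹) • Measure.dirac (f ω)

instance law_prob {Ω : Type} [Fintype Ω] [Nonempty Ω] (f : Ω → ℝ) :
    IsProbabilityMeasure (law f) := by
  constructor
  have : (Fintype.card Ω : NNReal) ≠ 0 := by positivity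
  simp only [law, Measure.coe_finsetSum, Finset.sum_apply, Measure.smul_apply, measure_univ,
    sum_const, card_univ, nsmul_eq_mul]
  rw [ENNReal.smul_def, smul_eq_mul, mul_one]
  have h2 : ((Fintype.card Ω : ℕ) : ENNReal) = ((Fintype.card Ω : NNReal) : ENNReal) := by simp
  rw [h2, ← ENNReal.coe_mul, mul_inv_cancel₀ this, ENNReal.coe_one]

lemma integral_law {Ω : Type} [Fintype Ω] {F : Type} [NormedAddCommGroup F] [NormedSpace ℝ F]
    [CompleteSpace F] (f : Ω → ℝ) (g : ℝ → F) :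
    ∫ x, g x ∂(law f) = (Fintype.card Ω : ℝ)⁻¹ • ∑ ω, g (f ω) := by
  unfold law
  rw [integral_finsetSum_measure]
  · simp only [integral_smul_nnreal_measure, integral_dirac, smul_sum]
    refine sum_congr rfl fun ω _ => ?_
    rw [NNReal.smul_def]; simp
  · intro ω _
    exact (integrable_dirac (by simp)).smul_measure_nnreal

lemma integral_law_real {Ω : Type} [Fintype Ω] (f : Ω → ℝ) (g : ℝ → ℝ) :
    ∫ x, g x ∂(law f) = E (fun ω => g (f ω)) := by
  rw [integral_law, smul_eq_mul, E, div_eq_inv_mul]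

lemma charFun_law_pow {Ω : Type} [Fintype Ω] (X : Ω → ℝ) (m : ℕ) (c t : ℝ) :
    charFun (law (fun x : Fin m → Ω => c * ∑ j, X (x j))) t = charFun (law X) (c * t) ^ m := by
  rw [charFun_apply_real, charFun_apply_real, integral_law, integral_law, smul_pow]
  have h1 : (∑ ω, Complex.exp (((c * t : ℝ) : ℂ) * (X ω : ℝ) * Complex.I)) ^ m
      = ∑ x : Fin m → Ω, ∏ j, Complex.exp (((c * t : ℝ) : ℂ) * (X (x j) : ℝ) * Complex.I) := by
    have := Finset.prod_univ_sum (fun _ : Fin m => (univ : Finset Ω))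
      (fun _ ω => Complex.exp (((c * t : ℝ) : ℂ) * (X ω : ℝ) * Complex.I))
    simpa using this
  rw [h1]
  congr 1
  · simp
  · refine sum_congr rfl fun x _ => ?_
    rw [← Complex.exp_sum]
    congr 1
    push_cast
    rw [← sum_mul, ← mul_sum]
    ring

/-- the test function -/
noncomputable def testFn : BoundedContinuousFunction ℝ ℝ :=
  BoundedContinuousFunction.ofNormedAddCommGroup
    (fun x => |x| * Real.exp (-(1 / 50) * |x| ^ 2)) (by fun_prop) 26 (fun x => by
      rw [Real.norm_eq_abs, abs_of_nonneg (by positivity)]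
      have h1 : (1 / 50) * |x| ^ 2 + 1 ≤ Real.exp ((1 / 50) * |x| ^ 2) := Real.add_one_le_exp _
      rw [neg_mul, Real.exp_neg, ← div_eq_mul_inv, div_le_iff₀ (Real.exp_pos _)]
      nlinarith [sq_nonneg (|x| - 1), abs_nonneg x])

lemma testFn_le (x : ℝ) : testFn x ≤ |x| := by
  change |x| * Real.exp (-(1 / 50) * |x| ^ 2) ≤ |x|
  have : Real.exp (-(1 / 50) * |x| ^ 2) ≤ 1 := by
    rw [Real.exp_le_one_iff]; nlinarith [sq_nonneg |x|]
  nlinarith [abs_nonneg x]

lemma integral_half : ∫ x in Set.Ioi (0 : ℝ), x * Real.exp (-(13 / 25) * x ^ 2) = 25 / 26 := by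
  have h := integral_mul_cexp_neg_mul_sq (b := ((13 / 25 : ℝ) : ℂ)) (by simp)
  have h2 : ∫ r : ℝ in Set.Ioi 0, (r : ℂ) * Complex.exp (-((13 / 25 : ℝ) : ℂ) * (r : ℂ) ^ 2)
      = ((∫ x in Set.Ioi (0 : ℝ), x * Real.exp (-(13 / 25) * x ^ 2) : ℝ) : ℂ) := by
    rw [← integral_complex_ofReal]
    congr 1
    funext x
    push_cast
    rfl
  rw [h2] at h
  have h3 : ((25 / 26 : ℝ) : ℂ) = (2 * ((13 / 25 : ℝ) : ℂ))⁻¹ := by push_cast; norm_num
  exact_mod_cast h.trans h3.symm

lemma integral_testFn : (762 / 1000 : ℝ) < ∫ x, testFn x ∂(gaussianReal 0 1) := by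
  rw [integral_gaussianReal_eq_integral_smul one_ne_zero]
  have h1 : ∀ x : ℝ, gaussianPDFReal 0 1 x • testFn x
      = (fun y : ℝ => (√(2 * Real.pi))⁻¹ * (y * Real.exp (-(13 / 25) * y ^ 2))) |x| := by
    intro x
    change gaussianPDFReal 0 1 x * (|x| * Real.exp (-(1 / 50) * |x| ^ 2)) = _
    simp only [gaussianPDFReal, NNReal.coe_one, mul_one, sub_zero, sq_abs]
    have : Real.exp (-(13 / 25) * x ^ 2)
        = Real.exp (-x ^ 2 / 2) * Real.exp (-(1 / 50) * x ^ 2) := by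
      rw [← Real.exp_add]; congr 1; ring
    rw [this]; ring
  simp only [h1]
  rw [integral_comp_abs (f := fun y : ℝ => (√(2 * Real.pi))⁻¹ * (y * Real.exp (-(13 / 25) * y ^ 2))),
    integral_const_mul, integral_half]
  have h2 : √(2 * Real.pi) < 251 / 100 := by
    rw [Real.sqrt_lt' (by norm_num)]
    have := Real.pi_lt_d2
    linarith
  have h3 : 0 < √(2 * Real.pi) := Real.sqrt_pos.2 (by have := Real.pi_pos; linarith)
  have h4 : (100 / 251 : ℝ) < (√(2 * Real.pi))⁻¹ := by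
    rw [lt_inv_comm₀ (by norm_num) h3]
    linarith
  linarith

theorem clt_abs_one {Ω : Type} [Fintype Ω] [Nonempty Ω] (X : Ω → ℝ) (h0 : E X = 0)
    (h1 : E (fun ω => X ω ^ 2) = 1) :
    ∀ᶠ m : ℕ in atTop, (762 / 1000 : ℝ) <
      E (fun x : Fin m → Ω => |(√m)⁻¹ * ∑ j, X (x j)|) := by
  let μ : ℕ → ProbabilityMeasure ℝ := fun m =>
    ⟨law (fun x : Fin m → Ω => (√m)⁻¹ * ∑ j, X (x j)), inferInstance⟩
  let γ : ProbabilityMeasure ℝ := ⟨gaussianReal 0 1, inferInstance⟩
  have ht : Tendsto μ atTop (𝓝 γ) := by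
    refine ProbabilityMeasure.tendsto_iff_tendsto_charFun.2 fun t => ?_
    have := tendsto_charFun_inv_sqrt_mul_pow (P := law X) (X := id) aemeasurable_id
      (by rw [← h0]; exact integral_law_real X id)
      (by rw [← h1]; exact integral_law_real X (fun x => x ^ 2)) t
    simp only [Measure.map_id] at this
    simpa [μ, γ, charFun_law_pow, charFun_gaussianReal, neg_div] using this
  have h2 := (ProbabilityMeasure.tendsto_iff_forall_integral_tendsto.1 ht) testFn
  have h3 := h2.eventually (lt_mem_nhds integral_testFn)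
  filter_upwards [h3] with m hm
  refine hm.trans_le ?_
  change ∫ x, testFn x ∂(law _) ≤ _
  rw [integral_law_real]
  exact E_mono fun x => testFn_le _

theorem clt_abs {Ω : Type} [Fintype Ω] [Nonempty Ω] (Y : Ω → ℝ) (h0 : E Y = 0)
    (hσ : 0 < E (fun ω => Y ω ^ 2)) :
    ∀ᶠ m : ℕ in atTop, (58 / 100 : ℝ) * (m * E (fun ω => Y ω ^ 2)) ≤
      E (fun x : Fin m → Ω => |∑ j, Y (x j)|) ^ 2 := by
  set v := E (fun ω => Y ω ^ 2) with hv
  have hs : 0 < √v := Real.sqrt_pos.2 hσ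
  have h := clt_abs_one (fun ω => (√v)⁻¹ * Y ω) (by rw [E_mul_left, h0, mul_zero]) (by
    simp only [mul_pow, E_mul_left]
    rw [← hv, inv_pow, Real.sq_sqrt hσ.le, inv_mul_cancel₀ hσ.ne'])
  filter_upwards [h, eventually_gt_atTop 0] with m hm hm0
  have hm' : 0 < √(m : ℝ) := Real.sqrt_pos.2 (by exact_mod_cast hm0)
  have e : ∀ x : Fin m → Ω, |(√m)⁻¹ * ∑ j, (√v)⁻¹ * Y (x j)|
      = (√m * √v)⁻¹ * |∑ j, Y (x j)| := by
    intro x
    rw [← mul_sum, ← mul_assoc, abs_mul, ← mul_inv, abs_of_pos (by positivity)]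
  simp only [e, E_mul_left] at hm
  rw [inv_mul_eq_div, lt_div_iff₀ (by positivity)] at hm
  have h2 : (762 / 1000 * (√m * √v)) ^ 2 ≤ E (fun x : Fin m → Ω => |∑ j, Y (x j)|) ^ 2 :=
    pow_le_pow_left₀ (by positivity) hm.le 2
  rw [mul_pow, mul_pow, Real.sq_sqrt hσ.le, Real.sq_sqrt (Nat.cast_nonneg m)] at h2
  have : 0 ≤ (m : ℝ) * v := by positivity
  nlinarith

end Crest.Agent.H0085
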