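import Crest.Agent.H0085.Est

set_option autoImplicit false
open Finset BigOperators

namespace Crest.Agent.H0085

lemma sum_sg_sq_le {n : ℕ} (β : Fin n → Bool) : (∑ i, sg (β i)) ^ 2 ≤ (n : ℝ) ^ 2 := by
  rw [← sq_abs]
  refine pow_le_pow_left₀ (abs_nonneg _) ?_ 2
  refine (abs_sum_le_sum_abs _ _).trans (le_of_eq ?_)
  simp [abs_sg]

/-- the objective used for the rounding -/
noncomputable def obj {Γ : Type} (m : Γ → ℝ) (K v μ s : ℝ) {n h : ℕ} (w : Fin h → Γ)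
    (β : Fin n → Bool) : ℝ :=
  K - (n * v + 2 * μ ^ 2 * (∑ i, sg (β i)) ^ 2 + 6 * (∑ j, m (w j) - s) ^ 2 + 12 * (K / 1600))

/-- the starting fractional set -/
noncomputable def start {Γ : Type} (m : Γ → ℝ) (s δw : ℝ) {n h : ℕ} (t0 : (Fin n → Bool) → ℝ)
    (w : Fin h → Γ) (β : Fin n → Bool) : ℝ :=
  if |∑ j, m (w j) - s| ≤ δw then t0 β else 0

/-- the indicator of the cell, from the integer valued function and the fibre indicators -/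
noncomputable def cell {R : ℕ} (τ : ℤ) (A : Fin R → ℝ) : ℝ :=
  (if τ = 1 then (1 : ℝ) else 0) * ∏ l, A l
    + ∑ l : Fin R, (if ((l : ℕ) : ℤ) < -τ then (1 : ℝ) else 0) *
      ((∏ j ∈ univ.erase l, A j) - ∏ j, A j)

open Classical in
lemma pen_bound {Z Γ : Type} [Fintype Z] [Nonempty Z] (W : Z → ℝ) (K : ℝ) (hW0 : E W = 0)
    (hW : E (fun u => W u ^ 2) = K) (γ : Z → Γ) (m : Γ → ℝ)
    (hr : ∀ φ : Γ → ℝ, E (fun u => (W u - m (γ u)) * φ (γ u)) = 0) (y : Γ)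
    (p : ℝ) (hp : p ≤ E (fun u => if γ u = y then (1 : ℝ) else 0)) {h : ℕ} (hh : 1 ≤ h)
    (s : ℝ) (hs : s ^ 2 ≤ 4 * h * K) (P0 a b : ℝ) (hP0 : 0 ≤ P0) (ha : 0 ≤ a) (hb : 0 ≤ b) :
    E (fun z : Fin h → Z => (P0 + 6 * (∑ j, m (γ (z j)) - s) ^ 2) *
        (a + (if ∃ i, γ (z i) = y then (0 : ℝ) else 1) * b))
      ≤ (P0 + 60 * h * K) * a + (P0 + 60 * h ^ 2 * K) * (1 - p) ^ (h - 1) * b := by
  have hK : 0 ≤ K := hW ▸ E_nonneg fun u => sq_nonneg _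
  have hh' : (1 : ℝ) ≤ h := by exact_mod_cast hh
  have h1 := mean_sq_le W γ m hr (h := h) (fun _ => 1) (fun _ => zero_le_one)
  simp only [one_mul] at h1
  rw [E_sq_sum W hW0, hW, Fintype.card_fin] at h1
  let I : (Fin h → Γ) → ℝ := fun w => if ∃ i, w i = y then (0 : ℝ) else 1
  have hI : ∀ w, 0 ≤ I w := fun w => by simp only [I]; split_ifs <;> norm_num
  have h2 := mean_sq_le W γ m hr (h := h) I hI
  have h3 : E (fun z : Fin h → Z => I (fun j => γ (z j)) * (∑ j, W (z j)) ^ 2)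
      ≤ h ^ 2 * K * (1 - p) ^ (h - 1) := by
    have e1 : ∀ z : Fin h → Z, I (fun j => γ (z j)) * (∑ j, W (z j)) ^ 2
        ≤ h * ∑ j, I (fun j => γ (z j)) * W (z j) ^ 2 := by
      intro z
      have := sq_sum_le_card_mul_sum_sq (s := (univ : Finset (Fin h))) (f := fun j => W (z j))
      rw [card_univ, Fintype.card_fin] at this
      rw [← mul_sum]
      nlinarith [mul_le_mul_of_nonneg_left this (hI (fun j => γ (z j)))]
    refine (E_mono e1).trans ?_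
    rw [E_mul_left, E_sum]
    have e2 := fun j : Fin h => noagree_bound γ y p hp j (fun u => W u ^ 2) (fun u => sq_nonneg _)
    have e3 := sum_le_card_nsmul univ _ _ fun j _ => e2 j
    rw [card_univ, Fintype.card_fin, nsmul_eq_mul, hW] at e3
    nlinarith [mul_le_mul_of_nonneg_left e3 (Nat.cast_nonneg h : (0 : ℝ) ≤ h)]
  have h4 := noagree_bound γ y p hp (⟨0, hh⟩ : Fin h) (fun _ => 1) (fun _ => zero_le_one)
  simp only [mul_one, E_const, one_mul] at h4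
  have h5 : ∀ z : Fin h → Z, (P0 + 6 * (∑ j, m (γ (z j)) - s) ^ 2) *
        (a + (if ∃ i, γ (z i) = y then (0 : ℝ) else 1) * b)
      ≤ ((P0 + 12 * s ^ 2) * a + 12 * a * (∑ j, m (γ (z j))) ^ 2)
        + ((P0 + 12 * s ^ 2) * b * I (fun j => γ (z j))
          + 12 * b * (I (fun j => γ (z j)) * (∑ j, m (γ (z j))) ^ 2)) := by
    intro z
    have e0 := hI (fun j => γ (z j))
    change _ * (a + I (fun j => γ (z j)) * b) ≤ _
    generalize I (fun j => γ (z j)) = i at *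
    generalize ∑ j, m (γ (z j)) = U
    have e1 : (U - s) ^ 2 ≤ 2 * U ^ 2 + 2 * s ^ 2 := by nlinarith [sq_nonneg (U + s)]
    have e2 : 0 ≤ a + i * b := by positivity
    nlinarith [mul_le_mul_of_nonneg_right e1 e2]
  refine (E_mono h5).trans ?_
  rw [E_add, E_add, E_add, E_const, E_mul_left, E_mul_left, E_mul_left]
  have hq : 0 ≤ (1 - p) ^ (h - 1) := (E_nonneg fun z => hI _).trans h4
  have e1 : (P0 + 12 * s ^ 2) * b * E (fun z : Fin h → Z => I (fun j => γ (z j)))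
      ≤ (P0 + 48 * h ^ 2 * K) * b * (1 - p) ^ (h - 1) := by
    refine mul_le_mul (mul_le_mul_of_nonneg_right ?_ hb) h4 (E_nonneg fun z => hI _)
      (by positivity)
    have : (h : ℝ) * K ≤ h ^ 2 * K := by gcongr; nlinarith
    linarith
  have e2 := mul_le_mul_of_nonneg_left (h2.trans h3) hb
  have e3 := mul_le_mul_of_nonneg_left h1 ha
  have e4 := mul_le_mul_of_nonneg_left hs ha
  nlinarith

/-- double average over mover blocks and sign patterns -/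
noncomputable def EE {Z Γ : Type} [Fintype Z] (γ : Z → Γ) {n h : ℕ}
    (Ψ : (Fin h → Γ) → (Fin n → Bool) → ℝ) : ℝ :=
  E (fun z : Fin h → Z => E (fun β : Fin n → Bool => Ψ (fun j => γ (z j)) β))

section EE
variable {Z Γ : Type} [Fintype Z] (γ : Z → Γ) {n h : ℕ}

lemma EE_mono {Ψ Ψ' : (Fin h → Γ) → (Fin n → Bool) → ℝ} (H : ∀ w β, Ψ w β ≤ Ψ' w β) :
    EE γ Ψ ≤ EE γ Ψ' := E_mono fun _ => E_mono fun _ => H _ _

lemma EE_nonneg {Ψ : (Fin h → Γ) → (Fin n → Bool) → ℝ} (H : ∀ w β, 0 ≤ Ψ w β) :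
    0 ≤ EE γ Ψ := E_nonneg fun _ => E_nonneg fun _ => H _ _

lemma EE_add (Ψ Ψ' : (Fin h → Γ) → (Fin n → Bool) → ℝ) :
    EE γ (fun w β => Ψ w β + Ψ' w β) = EE γ Ψ + EE γ Ψ' := by simp only [EE, E_add]

lemma EE_mul (c : ℝ) (Ψ : (Fin h → Γ) → (Fin n → Bool) → ℝ) :
    EE γ (fun w β => c * Ψ w β) = c * EE γ Ψ := by simp only [EE, E_mul_left]

end EE

noncomputable def TT {Ω Z Γ : Type} [Fintype Ω] [Fintype Z] (Y : Ω → ℝ) (b : Ω → Bool)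
    (W : Z → ℝ) (γ : Z → Γ) (K s : ℝ) {n h : ℕ}
    (Ψ : (Fin h → Γ) → (Fin n → Bool) → ℝ) (c : ℝ) : ℝ :=
  E (fun q : (Fin n → Ω) × (Fin h → Z) => Ψ (fun j => γ (q.2 j)) (fun i => b (q.1 i)) *
    (K - (∑ i, Y (q.1 i) + ∑ j, W (q.2 j) + c - s) ^ 2))

noncomputable def pen {Γ : Type} (m : Γ → ℝ) (P0 s : ℝ) {h : ℕ} (w : Fin h → Γ) : ℝ :=
  P0 + 6 * (∑ j, m (w j) - s) ^ 2

noncomputable def ind0 (τ : ℤ) : ℝ := if τ = 1 then 1 else 0
noncomputable def indl (l : ℕ) (τ : ℤ) : ℝ := if (l : ℤ) < -τ then 1 else 0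

lemma ind0_nonneg (τ : ℤ) : 0 ≤ ind0 τ := by unfold ind0; split_ifs <;> norm_num
lemma indl_nonneg (l : ℕ) (τ : ℤ) : 0 ≤ indl l τ := by unfold indl; split_ifs <;> norm_num

lemma TT_ge {Ω : Type} [Fintype Ω] [Nonempty Ω] (Y : Ω → ℝ) (b : Ω → Bool) (μ v : ℝ)
    (hlaw : ∀ φ : Bool → ℝ, E (fun ω => φ (b ω)) = E φ)
    (hmean : ∀ φ : Bool → ℝ, E (fun ω => (Y ω - μ * sg (b ω)) * φ (b ω)) = 0)
    (hvar : ∀ φ : Bool → ℝ, E (fun ω => (Y ω - μ * sg (b ω)) ^ 2 * φ (b ω))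
      = E (fun ω => v * φ (b ω)))
    {Z Γ : Type} [Fintype Z] [Nonempty Z] (W : Z → ℝ) (γ : Z → Γ) (m : Γ → ℝ) (ρ : ℝ)
    (hr : ∀ φ : Γ → ℝ, E (fun u => (W u - m (γ u)) * φ (γ u)) = 0)
    (hρ : ∀ u, (W u - m (γ u)) ^ 2 ≤ ρ) (K s : ℝ)
    {n h : ℕ} (Ψ : (Fin h → Γ) → (Fin n → Bool) → ℝ) (hΨ : ∀ w β, 0 ≤ Ψ w β) (c : ℝ) :
    EE γ (fun w β => Ψ w β *
      (K - (n * v + 2 * μ ^ 2 * (∑ i, sg (β i)) ^ 2 + 6 * (∑ j, m (w j) - s) ^ 2
          + 6 * (h * ρ) + 6 * c ^ 2))) ≤ TT Y b W γ K s Ψ c := by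
  have e1 := sq_bound Y b μ v hlaw hmean hvar W γ m ρ hr hρ Ψ hΨ s c
  have e2 : E (fun q : (Fin n → Ω) × (Fin h → Z) =>
      Ψ (fun j => γ (q.2 j)) (fun i => b (q.1 i)) * K) = EE γ (fun w β => Ψ w β * K) := by
    rw [E_prod']
    exact E_congr fun z => E_push b hlaw (fun β => Ψ (fun j => γ (z j)) β * K)
  simp only [TT, EE, mul_sub (Ψ _ _) K, E_sub] at e2 ⊢
  linarith

lemma total_eq {Ω Z Γ : Type} [Fintype Ω] [Fintype Z] (Y : Ω → ℝ) (b : Ω → Bool)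
    (W : Z → ℝ) (γ : Z → Γ) (K s : ℝ) {n h R : ℕ} (α : Fin R → Z → ℝ) (a : Fin R → ℝ)
    (τ : (Fin h → Γ) → (Fin n → Bool) → ℤ) :
    E (fun ω : ((Fin n → Ω) × (Fin h → Z)) × (Fin R → Z) =>
        cell (τ (fun j => γ (ω.1.2 j)) (fun i => b (ω.1.1 i))) (fun l => α l (ω.2 l)) *
          (K - (∑ i, Y (ω.1.1 i) + ∑ j, W (ω.1.2 j) + ∑ l, W (ω.2 l) - (s + ∑ l, a l)) ^ 2))
      = E (fun φ : Fin R → Z => (∏ l, α l (φ l)) *
          TT Y b W γ K s (fun w β => ind0 (τ w β)) (∑ l, (W (φ l) - a l))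
        + ∑ l : Fin R, ((∏ j ∈ univ.erase l, α j (φ j)) - ∏ j, α j (φ j)) *
          TT Y b W γ K s (fun w β => indl l (τ w β)) (∑ j, (W (φ j) - a j))) := by
  rw [E_prod']
  refine E_congr fun φ => ?_
  simp only [TT]
  simp only [← E_mul_left]
  rw [← E_sum, ← E_add]
  refine E_congr fun q => ?_
  have e : ∑ i, Y (q.1 i) + ∑ j, W (q.2 j) + ∑ l, W (φ l) - (s + ∑ l, a l)
      = ∑ i, Y (q.1 i) + ∑ j, W (q.2 j) + ∑ l, (W (φ l) - a l) - s := by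
    rw [sum_sub_distrib]; ring
  rw [e]
  generalize (K - (∑ i, Y (q.1 i) + ∑ j, W (q.2 j) + ∑ l, (W (φ l) - a l) - s) ^ 2) = X
  simp only [cell, add_mul, sum_mul, ind0, indl]
  congr 1
  · ring
  · exact sum_congr rfl fun l _ => by ring

lemma aux_mu {n : ℕ} (β : Fin n → Bool) {μ σ2 : ℝ} (hv : 0 ≤ σ2 - μ ^ 2) :
    μ ^ 2 * (∑ i, sg (β i)) ^ 2 ≤ σ2 * n ^ 2 :=
  mul_le_mul (by linarith) (sum_sg_sq_le β) (sq_nonneg _) (by nlinarith [sq_nonneg μ])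

theorem core_fiber {Ω : Type} [Fintype Ω] [Nonempty Ω] (Y : Ω → ℝ) (b : Ω → Bool) (μ σ2 : ℝ)
    (hlaw : ∀ φ : Bool → ℝ, E (fun ω => φ (b ω)) = E φ)
    (hmean : ∀ φ : Bool → ℝ, E (fun ω => (Y ω - μ * sg (b ω)) * φ (b ω)) = 0)
    (hvar : ∀ φ : Bool → ℝ, E (fun ω => (Y ω - μ * sg (b ω)) ^ 2 * φ (b ω))
      = E (fun ω => (σ2 - μ ^ 2) * φ (b ω))) (hv : 0 ≤ σ2 - μ ^ 2)
    {Z Γ : Type} [Fintype Z] [Nonempty Z] (W : Z → ℝ) (K : ℝ)
    (hW : E (fun u => W u ^ 2) = K) (γ : Z → Γ) (m : Γ → ℝ) (ρ : ℝ)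
    (hr : ∀ φ : Γ → ℝ, E (fun u => (W u - m (γ u)) * φ (γ u)) = 0)
    (hρ : ∀ u, (W u - m (γ u)) ^ 2 ≤ ρ)
    {n h R : ℕ} (hρK : h * ρ ≤ K / 1600) (s : ℝ)
    (α : Fin R → Z → ℝ) (hα : ∀ l u, α l u = 0 ∨ α l u = 1) (a δ : Fin R → ℝ)
    (δf : ℝ) (hδ : ∀ l u, α l u = 1 → |W u - a l| ≤ δ l) (hδf : ∑ l, δ l ≤ δf)
    (hδ0 : ∀ l, 0 ≤ δ l) (hδfK : δf ^ 2 ≤ K / 1600)
    (hpl : ∀ l : Fin R, 1 / (320 * (((l : ℕ) : ℝ) + 1) ^ 2) ≤ E (α l))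
    (ha : ∀ l, a l ^ 2 ≤ 4 * K) (τ : (Fin h → Γ) → (Fin n → Bool) → ℤ) :
    (∏ l, E (α l)) * (EE γ (fun w β => ind0 (τ w β) * obj m K (σ2 - μ ^ 2) μ s w β)
      - ∑ l : Fin R, EE γ (fun w β => indl l (τ w β) *
          pen m (σ2 * (n + 2 * n ^ 2) + 122 * K) s w) * (320 * ((l : ℕ) + 1) ^ 2))
      ≤ E (fun ω : ((Fin n → Ω) × (Fin h → Z)) × (Fin R → Z) =>
        cell (τ (fun j => γ (ω.1.2 j)) (fun i => b (ω.1.1 i))) (fun l => α l (ω.2 l)) *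
          (K - (∑ i, Y (ω.1.1 i) + ∑ j, W (ω.1.2 j) + ∑ l, W (ω.2 l) - (s + ∑ l, a l)) ^ 2)) := by
  have hK : 0 ≤ K := hW ▸ E_nonneg fun u => sq_nonneg _
  have hσ : 0 ≤ σ2 := by nlinarith [sq_nonneg μ]
  have H1 : ∀ l, E (fun u => (W u - a l) ^ 2) ≤ 10 * K := by
    intro l
    have : ∀ u, (W u - a l) ^ 2 ≤ 2 * W u ^ 2 + 2 * a l ^ 2 := fun u => by
      nlinarith [sq_nonneg (W u + a l)]
    refine (E_mono this).trans ?_
    rw [E_add, E_mul_left, E_const, hW]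
    linarith [ha l]
  have H2 : ∀ l : Fin R, 0 ≤ EE γ (fun w β => indl l (τ w β) *
      (pen m (σ2 * (n + 2 * n ^ 2) + 122 * K) s w - 120 * K)) := by
    intro l
    refine EE_nonneg γ fun w β => mul_nonneg (indl_nonneg _ _) ?_
    have e1 : 0 ≤ σ2 * (n + 2 * n ^ 2) := by positivity
    have e2 := sq_nonneg (∑ j, m (w j) - s)
    unfold pen
    linarith
  have H3 : ∀ c, |c| ≤ δf → EE γ (fun w β => ind0 (τ w β) * obj m K (σ2 - μ ^ 2) μ s w β)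
      ≤ TT Y b W γ K s (fun w β => ind0 (τ w β)) c := by
    intro c hc
    refine le_trans (EE_mono γ fun w β => ?_) (TT_ge Y b μ _ hlaw hmean hvar W γ m ρ hr hρ K s
      (fun w β => ind0 (τ w β)) (fun w β => ind0_nonneg _) c)
    refine mul_le_mul_of_nonneg_left ?_ (ind0_nonneg _)
    have : c ^ 2 ≤ δf ^ 2 := by
      rw [← sq_abs c]; exact pow_le_pow_left₀ (abs_nonneg _) hc 2
    unfold obj
    linarith
  have H4 : ∀ (l : Fin R) c₁ c₂, |c₁| ≤ δf → -(EE γ (fun w β => indl l (τ w β) *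
      (pen m (σ2 * (n + 2 * n ^ 2) + 122 * K) s w - 120 * K))
      + 12 * c₂ ^ 2 * EE γ (fun w β => indl l (τ w β)))
      ≤ TT Y b W γ K s (fun w β => indl l (τ w β)) (c₁ + c₂) := by
    intro l c₁ c₂ hc
    refine le_trans ?_ (TT_ge Y b μ _ hlaw hmean hvar W γ m ρ hr hρ K s
      (fun w β => indl l (τ w β)) (fun w β => indl_nonneg _ _) (c₁ + c₂))
    rw [← EE_mul, ← EE_add, ← neg_one_mul, ← EE_mul]
    refine EE_mono γ fun w β => ?_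
    have e1 : c₁ ^ 2 ≤ δf ^ 2 := by
      rw [← sq_abs c₁]; exact pow_le_pow_left₀ (abs_nonneg _) hc 2
    have e3 := aux_mu β hv
    have e4 := mul_nonneg (Nat.cast_nonneg n : (0 : ℝ) ≤ n) (sq_nonneg μ)
    have e6 : (c₁ + c₂) ^ 2 ≤ 2 * c₁ ^ 2 + 2 * c₂ ^ 2 := by nlinarith [sq_nonneg (c₁ - c₂)]
    have e5 : -(pen m (σ2 * (n + 2 * n ^ 2) + 122 * K) s w - 120 * K + 12 * c₂ ^ 2)
        ≤ K - (n * (σ2 - μ ^ 2) + 2 * μ ^ 2 * (∑ i, sg (β i)) ^ 2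
        + 6 * (∑ j, m (w j) - s) ^ 2 + 6 * (h * ρ) + 6 * (c₁ + c₂) ^ 2) := by
      unfold pen
      linarith
    have e7 := mul_le_mul_of_nonneg_left e5 (indl_nonneg l (τ w β))
    linarith
  have hfib := fiber_avg W K α hα a δ (fun l => 1 / (320 * (((l : ℕ) : ℝ) + 1) ^ 2)) δf hδ hδf hδ0
    (fun l => by positivity) hpl H1 _ _ _ _ _ H2 (fun l => EE_nonneg γ fun w β => indl_nonneg _ _)
    hK H3 H4
  rw [total_eq]
  refine le_trans (le_of_eq ?_) hfib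
  congr 2
  refine sum_congr rfl fun l _ => ?_
  rw [← EE_mul, ← EE_add, div_div_eq_mul_div, div_one]
  congr 2
  funext w β
  ring

lemma obj_le_pen {Γ : Type} (m : Γ → ℝ) {K μ σ2 : ℝ} (s : ℝ) (hK : 0 ≤ K) (hv : 0 ≤ σ2 - μ ^ 2)
    {n h : ℕ} (w : Fin h → Γ) (β : Fin n → Bool) :
    |obj m K (σ2 - μ ^ 2) μ s w β| ≤ pen m (σ2 * (n + 2 * n ^ 2) + 122 * K) s w := by
  have hσ : 0 ≤ σ2 := by nlinarith [sq_nonneg μ]
  have e3 := aux_mu β hv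
  have e4 := mul_nonneg (Nat.cast_nonneg n : (0 : ℝ) ≤ n) (sq_nonneg μ)
  have e5 : 0 ≤ (n : ℝ) * (σ2 - μ ^ 2) := by positivity
  have e6 : 0 ≤ μ ^ 2 * (∑ i, sg (β i)) ^ 2 := by positivity
  have e7 : 0 ≤ σ2 * (n + 2 * n ^ 2) := by positivity
  have e8 := sq_nonneg (∑ j, m (w j) - s)
  unfold obj pen
  rw [abs_le]; constructor <;> linarith

lemma start_gain {Γ : Type} (m : Γ → ℝ) {K v μ s δw : ℝ} (hδw : δw ^ 2 ≤ K / 1600) {n h : ℕ}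
    (t0 : (Fin n → Bool) → ℝ) (ht0 : ∀ β, 0 ≤ t0 β) (e0 : ℝ) (he00 : 0 ≤ e0) (he0 : e0 ≤ E t0)
    (ht : E (fun β => t0 β * (∑ i, sg (β i)) ^ 2) ≤ n / 200 * E t0)
    (gap : ℝ) (hgap0 : 0 ≤ gap) (hgap : gap ≤ K - n * v - n / 100 * μ ^ 2 - 18 * (K / 1600))
    (w : Fin h → Γ) :
    (if |∑ j, m (w j) - s| ≤ δw then (1 : ℝ) else 0) * (e0 * gap)
      ≤ E (fun β => start m s δw t0 w β * obj m K v μ s w β) := by
  by_cases hz : |∑ j, m (w j) - s| ≤ δw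
  · simp only [start, hz, if_true, one_mul]
    have e2 : (∑ j, m (w j) - s) ^ 2 ≤ δw ^ 2 := by
      rw [← sq_abs]; exact pow_le_pow_left₀ (abs_nonneg _) hz 2
    have e3 : ∀ β : Fin n → Bool, (K - n * v - 18 * (K / 1600)) * t0 β
        - 2 * μ ^ 2 * (t0 β * (∑ i, sg (β i)) ^ 2) ≤ t0 β * obj m K v μ s w β := by
      intro β
      have e4 : K - n * v - 18 * (K / 1600) - 2 * μ ^ 2 * (∑ i, sg (β i)) ^ 2
          ≤ obj m K v μ s w β := by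
        unfold obj; linarith
      have := mul_le_mul_of_nonneg_left e4 (ht0 β)
      linarith
    refine le_trans ?_ (E_mono e3)
    rw [E_sub, E_mul_left, E_mul_left]
    have e5 := mul_le_mul_of_nonneg_left ht (sq_nonneg μ)
    have e6 := mul_le_mul_of_nonneg_left hgap (he00.trans he0)
    have e7 := mul_le_mul_of_nonneg_right he0 hgap0
    linarith
  · simp only [start, hz, if_false, zero_mul, E_zero, le_refl]

open Classical in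
theorem core_slices {μ σ2 : ℝ} (hv : 0 ≤ σ2 - μ ^ 2)
    {Z Γ : Type} [Fintype Z] [Nonempty Z] (W : Z → ℝ) (K : ℝ) (hW0 : E W = 0)
    (hW : E (fun u => W u ^ 2) = K) (γ : Z → Γ) (m : Γ → ℝ)
    (hr : ∀ φ : Γ → ℝ, E (fun u => (W u - m (γ u)) * φ (γ u)) = 0) (y : Γ)
    (p : ℝ) (hp : p ≤ E (fun u => if γ u = y then (1 : ℝ) else 0))
    {n h R : ℕ} (hh : 1 ≤ h)
    (s δw pw : ℝ) (hs : s ^ 2 ≤ 4 * h * K) (hδw : δw ^ 2 ≤ K / 1600)
    (hpw : pw ≤ E (fun z : Fin h → Z => if |∑ j, m (γ (z j)) - s| ≤ δw then (1 : ℝ) else 0))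
    (t0 : (Fin n → Bool) → ℝ) (ht0 : ∀ β, 0 ≤ t0 β) (e0 : ℝ) (he00 : 0 ≤ e0) (he0 : e0 ≤ E t0)
    (ht : E (fun β => t0 β * (∑ i, sg (β i)) ^ 2) ≤ n / 200 * E t0)
    (gap : ℝ) (hgap0 : 0 ≤ gap)
    (hgap : gap ≤ K - n * (σ2 - μ ^ 2) - n / 100 * μ ^ 2 - 18 * (K / 1600))
    (τ : (Fin h → Γ) → (Fin n → Bool) → ℤ) (f0 : (Fin h → Γ) → (Fin n → Bool) → ℝ) (ε : ℝ)
    (hε : 0 ≤ ε) (hτ1 : ∀ w β, τ w β ≤ 1) (hτR : ∀ w β, -(R : ℤ) ≤ τ w β)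
    (hf0 : ∀ w β, 0 ≤ f0 w β ∧ f0 w β ≤ 1)
    (hobj : ∀ w, ∑ β, obj m K (σ2 - μ ^ 2) μ s w β * start m s δw t0 w β
      ≤ ∑ β, obj m K (σ2 - μ ^ 2) μ s w β * f0 w β)
    (hag : ∀ w, (∃ i, w i = y) → (∀ β, -(h : ℤ) ≤ τ w β) ∧
      E (fun β => |(τ w β : ℝ) - f0 w β|) ≤ ε) :
    pw * e0 * gap
        - ((σ2 * (n + 2 * n ^ 2) + 122 * K + 60 * h * K) * (ε * (1 + 320 * (h : ℝ) ^ 3))
          + (σ2 * (n + 2 * n ^ 2) + 122 * K + 60 * h ^ 2 * K) * (1 - p) ^ (h - 1)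
            * (1 + 320 * (R : ℝ) ^ 3))
      ≤ EE γ (fun w β => ind0 (τ w β) * obj m K (σ2 - μ ^ 2) μ s w β)
        - ∑ l : Fin R, EE γ (fun w β => indl l (τ w β) *
          pen m (σ2 * (n + 2 * n ^ 2) + 122 * K) s w) * (320 * ((l : ℕ) + 1) ^ 2) := by
  have hK : 0 ≤ K := hW ▸ E_nonneg fun u => sq_nonneg _
  have hσ : 0 ≤ σ2 := by nlinarith [sq_nonneg μ]
  have hG := fun (w : Fin h → Γ) (β : Fin n → Bool) => obj_le_pen m s hK hv w β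
  have hP00 : 0 ≤ σ2 * (n + 2 * n ^ 2) + 122 * K := by positivity
  generalize σ2 * (n + 2 * n ^ 2) + 122 * K = P0 at *
  generalize σ2 - μ ^ 2 = v at *
  have hsl : ∀ w : Fin h → Γ, E (fun β => start m s δw t0 w β * obj m K v μ s w β)
      - pen m P0 s w * (ε * (1 + 320 * (h : ℝ) ^ 3)
        + (if ∃ i, w i = y then (0 : ℝ) else 1) * (1 + 320 * (R : ℝ) ^ 3))
      ≤ E (fun β => ind0 (τ w β) * obj m K v μ s w β)
        - ∑ l : Fin R, E (fun β => indl l (τ w β) * pen m P0 s w)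
          * (320 * ((l : ℕ) + 1) ^ 2) := by
    intro w
    have hPen : 0 ≤ pen m P0 s w := by unfold pen; positivity
    by_cases hw : ∃ i, w i = y
    · simp only [hw, if_true, zero_mul, add_zero]
      exact slice_err (τ w) (f0 w) _ _ _ ε R h (hτ1 w) (hag w hw).1 (hf0 w) (hG w) (hobj w)
        (Or.inr (hag w hw).2)
    · simp only [hw, if_false]
      refine le_trans ?_ (slice_err (τ w) (f0 w) _ _ _ 1 R R (hτ1 w) (hτR w) (hf0 w) (hG w)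
        (hobj w) (Or.inl le_rfl))
      have : 0 ≤ pen m P0 s w * (ε * (1 + 320 * (h : ℝ) ^ 3)) := by positivity
      linarith
  have h6 := E_mono fun z : Fin h → Z => hsl (fun j => γ (z j))
  rw [E_sub, E_sub, E_sum] at h6
  have h7 := pen_bound W K hW0 hW γ m hr y p hp hh s hs P0 (ε * (1 + 320 * (h : ℝ) ^ 3))
    (1 + 320 * (R : ℝ) ^ 3) hP00 (by positivity) (by positivity)
  have h8 := E_mono fun z : Fin h → Z =>
    start_gain (s := s) m hδw t0 ht0 e0 he00 he0 ht gap hgap0 hgap (fun j => γ (z j))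
  rw [E_mul_right] at h8
  have h9 := mul_le_mul_of_nonneg_right hpw (mul_nonneg he00 hgap0)
  simp only [E_mul_right (320 * _)] at h6
  unfold EE
  refine le_trans ?_ h6
  unfold pen
  linarith

lemma cell_bool {R : ℕ} (τ : ℤ) (A : Fin R → ℝ) (hA : ∀ l, A l = 0 ∨ A l = 1) :
    cell τ A = 0 ∨ cell τ A = 1 := by
  classical
  by_cases h0 : ∀ l, A l = 1
  · simp only [cell, h0, prod_const_one, sub_self, mul_zero, sum_const_zero, add_zero, mul_one]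
    split_ifs <;> simp
  · push Not at h0
    obtain ⟨l, hl⟩ := h0
    have hl0 : A l = 0 := (hA l).resolve_right hl
    have e1 : ∏ j, A j = 0 := prod_eq_zero (mem_univ l) hl0
    simp only [cell, e1, mul_zero, zero_add, sub_zero]
    rw [sum_eq_single l]
    · have : ∏ j ∈ univ.erase l, A j = 0 ∨ ∏ j ∈ univ.erase l, A j = 1 := by
        by_cases h1 : ∀ j ∈ univ.erase l, A j = 1
        · exact Or.inr (prod_eq_one h1)
        · push Not at h1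
          obtain ⟨j, hj, hj'⟩ := h1
          exact Or.inl (prod_eq_zero hj ((hA j).resolve_right hj'))
      split_ifs <;> simp [this]
    · intro j _ hj
      rw [prod_eq_zero (mem_erase.2 ⟨hj.symm, mem_univ l⟩) hl0, mul_zero]
    · simp

lemma cell_eq {R : ℕ} (τ : ℤ) (A : Fin R → ℝ) (h1 : τ ≤ 1) (hR : -(R : ℤ) ≤ τ) :
    cell τ A = τ * ∏ l, A l + ∑ l : Fin R, (if ((l : ℕ) : ℤ) < -τ then (1 : ℝ) else 0) *
      ∏ j ∈ univ.erase l, A j := by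
  have e : ∑ l : Fin R, (if ((l : ℕ) : ℤ) < -τ then (1 : ℝ) else 0)
      = (if τ = 1 then (1 : ℝ) else 0) - τ := by
    rw [Fin.sum_univ_eq_sum_range (fun l => if (l : ℤ) < -τ then (1 : ℝ) else 0) R, ← sum_filter]
    have : (range R).filter (fun l : ℕ => (l : ℤ) < -τ) = range (-τ).toNat := by
      ext l; simp only [mem_filter, mem_range]; omega
    rw [this, sum_const, card_range, nsmul_eq_mul, mul_one]
    split_ifs with h
    · simp [h]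
    · have : (((-τ).toNat : ℤ) : ℝ) = ((-τ : ℤ) : ℝ) := by
        congr 1; omega
      rw [Int.cast_natCast, Int.cast_neg] at this
      rw [this]; ring
  simp only [cell, mul_sub, sum_sub_distrib, ← sum_mul, e]
  ring

end Crest.Agent.H0085
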