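import Mathlib

set_option autoImplicit false
open Finset BigOperators

namespace Crest.Agent.H0085

/-- uniform average -/
noncomputable def E {Ω : Type} [Fintype Ω] (f : Ω → ℝ) : ℝ := (∑ x, f x) / Fintype.card Ω

section
variable {Ω : Type} [Fintype Ω]

lemma E_congr {f g : Ω → ℝ} (h : ∀ x, f x = g x) : E f = E g := by
  rw [show f = g from funext h]

lemma E_add (f g : Ω → ℝ) : E (fun x => f x + g x) = E f + E g := by
  simp [E, sum_add_distrib, add_div]

lemma E_sub (f g : Ω → ℝ) : E (fun x => f x - g x) = E f - E g := by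
  simp [E, sum_sub_distrib, sub_div]

lemma E_neg (f : Ω → ℝ) : E (fun x => - f x) = - E f := by
  simp [E, neg_div]

lemma E_mul_left (c : ℝ) (f : Ω → ℝ) : E (fun x => c * f x) = c * E f := by
  simp [E, ← mul_sum, mul_div_assoc]

lemma E_mul_right (c : ℝ) (f : Ω → ℝ) : E (fun x => f x * c) = E f * c := by
  simp only [mul_comm _ c, E_mul_left]

lemma E_sum {α : Type} (s : Finset α) (f : α → Ω → ℝ) :
    E (fun x => ∑ a ∈ s, f a x) = ∑ a ∈ s, E (f a) := by
  simp only [E]
  rw [sum_comm, sum_div]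

lemma E_const [Nonempty Ω] (c : ℝ) : E (fun _ : Ω => c) = c := by
  have : (Fintype.card Ω : ℝ) ≠ 0 := by positivity
  simp [E]

lemma E_zero : E (fun _ : Ω => (0 : ℝ)) = 0 := by simp [E]

lemma E_mono {f g : Ω → ℝ} (h : ∀ x, f x ≤ g x) : E f ≤ E g :=
  div_le_div_of_nonneg_right (sum_le_sum fun x _ => h x) (Nat.cast_nonneg _)

lemma E_nonneg {f : Ω → ℝ} (h : ∀ x, 0 ≤ f x) : 0 ≤ E f :=
  div_nonneg (sum_nonneg fun x _ => h x) (Nat.cast_nonneg _)

lemma E_le_const [Nonempty Ω] {f : Ω → ℝ} {c : ℝ} (h : ∀ x, f x ≤ c) : E f ≤ c :=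
  (E_mono h).trans (E_const c).le

lemma const_le_E [Nonempty Ω] {f : Ω → ℝ} {c : ℝ} (h : ∀ x, c ≤ f x) : c ≤ E f :=
  (E_const c).ge.trans (E_mono h)

lemma E_equiv {Ω' : Type} [Fintype Ω'] (e : Ω ≃ Ω') (f : Ω' → ℝ) :
    E (fun x => f (e x)) = E f := by
  simp only [E, Equiv.sum_comp e f, Fintype.card_congr e]

lemma E_prod {α β : Type} [Fintype α] [Fintype β] (f : α × β → ℝ) :
    E f = E (fun a => E (fun b => f (a, b))) := by
  simp only [E, Fintype.sum_prod_type, Fintype.card_prod, ← sum_div]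
  push_cast
  rw [div_div, mul_comm]

lemma E_comm {α β : Type} [Fintype α] [Fintype β] (f : α → β → ℝ) :
    E (fun a => E (fun b => f a b)) = E (fun b => E (fun a => f a b)) := by
  simp only [E, ← sum_div]
  rw [sum_comm, div_div, div_div, mul_comm]

lemma E_prod' {α β : Type} [Fintype α] [Fintype β] (f : α × β → ℝ) :
    E f = E (fun b => E (fun a => f (a, b))) := by
  rw [E_prod, E_comm]

lemma E_prod_mul {α β : Type} [Fintype α] [Fintype β] (f : α → ℝ) (g : β → ℝ) :
    E (fun p : α × β => f p.1 * g p.2) = E f * E g := by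
  rw [E_prod]
  simp only [E_mul_left, E_mul_right]

lemma eq_zero_of_E_eq_zero {f : Ω → ℝ} (h : ∀ x, 0 ≤ f x) (h0 : E f = 0) (x : Ω) : f x = 0 := by
  have : Nonempty Ω := ⟨x⟩
  have hc : (Fintype.card Ω : ℝ) ≠ 0 := by positivity
  have h1 : ∑ x, f x = 0 := by
    unfold E at h0
    exact (div_eq_zero_iff.1 h0).resolve_right hc
  exact (sum_eq_zero_iff_of_nonneg fun x _ => h x).1 h1 x (mem_univ x)

end

section pi
variable {κ Z : Type} [Fintype κ] [DecidableEq κ] [Fintype Z]

def updEquiv (j : κ) : (κ → Z) × Z ≃ (κ → Z) × Z where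
  toFun p := (Function.update p.1 j p.2, p.1 j)
  invFun p := (Function.update p.1 j p.2, p.1 j)
  left_inv p := by simp
  right_inv p := by simp

lemma E_update [Nonempty Z] (j : κ) (Φ : (κ → Z) → ℝ) :
    E Φ = E (fun x => E (fun u => Φ (Function.update x j u))) := by
  have h1 := E_equiv (updEquiv (Z := Z) j) (fun p => Φ p.1)
  rw [E_prod, E_prod] at h1
  simp only [E_const] at h1
  exact h1.symm

lemma E_pi_prod (ψ : κ → Z → ℝ) : E (fun x : κ → Z => ∏ j, ψ j (x j)) = ∏ j, E (ψ j) := by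
  simp only [E]
  rw [prod_div_distrib, prod_univ_sum]
  simp

lemma E_apply [Nonempty Z] (j : κ) (ψ : Z → ℝ) : E (fun x : κ → Z => ψ (x j)) = E ψ := by
  rw [E_update j]
  simp [E_const]

/-- a centered noise is orthogonal to everything that sees its block only through the class -/
lemma E_mul_noise [Nonempty Z] {Γ : Type} (γ : Z → Γ) (r : Z → ℝ)
    (hr : ∀ φ : Γ → ℝ, E (fun u => r u * φ (γ u)) = 0) (j : κ) (Ψ : (κ → Z) → ℝ)
    (hΨ : ∀ x u u', γ u = γ u' → Ψ (Function.update x j u) = Ψ (Function.update x j u')) :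
    E (fun x => Ψ x * r (x j)) = 0 := by
  classical
  rw [E_update j]
  refine (E_congr fun x => ?_).trans E_zero
  have hf : Function.FactorsThrough (fun u => Ψ (Function.update x j u)) γ :=
    fun u u' h => hΨ x u u' h
  obtain ⟨φ, hφ⟩ := (Function.factorsThrough_iff _).1 hf
  rw [← hr φ]
  refine E_congr fun u => ?_
  have := congrFun hφ u
  simp only [Function.comp] at this
  rw [Function.update_self, this, mul_comm]

omit [Fintype κ] [Fintype Z] in
lemma comp_update_congr {Γ : Type} (γ : Z → Γ) (x : κ → Z) (j : κ) {u u' : Z}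
    (h : γ u = γ u') :
    (fun i => γ (Function.update x j u i)) = fun i => γ (Function.update x j u' i) := by
  funext i
  by_cases hi : i = j
  · subst hi; simp [h]
  · simp [hi]

lemma E_replace [Nonempty Z] {Γ : Type} (γ : Z → Γ) (a a' : Z → ℝ)
    (h : ∀ φ : Γ → ℝ, E (fun u => a u * φ (γ u)) = E (fun u => a' u * φ (γ u))) (j : κ)
    (Φ : (κ → Γ) → ℝ) :
    E (fun x : κ → Z => Φ (fun i => γ (x i)) * a (x j))
      = E (fun x : κ → Z => Φ (fun i => γ (x i)) * a' (x j)) := by
  have := E_mul_noise γ (fun u => a u - a' u) (fun φ => by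
    simp only [sub_mul, E_sub, h φ, sub_self]) j (fun x => Φ (fun i => γ (x i)))
    (fun x u u' huu => by simp only [comp_update_congr γ x j huu])
  simp only [mul_sub, E_sub] at this
  linarith

lemma E_sq_noise [Nonempty Z] {Γ : Type} (γ : Z → Γ) (r : Z → ℝ)
    (hr : ∀ φ : Γ → ℝ, E (fun u => r u * φ (γ u)) = 0) (Φ H : (κ → Γ) → ℝ) :
    E (fun x : κ → Z => Φ (fun i => γ (x i)) * (H (fun i => γ (x i)) + ∑ j, r (x j)) ^ 2)
      = E (fun x : κ → Z => Φ (fun i => γ (x i)) * H (fun i => γ (x i)) ^ 2)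
        + ∑ j, E (fun x : κ → Z => Φ (fun i => γ (x i)) * r (x j) ^ 2) := by
  have h1 : ∀ x : κ → Z, Φ (fun i => γ (x i)) * (H (fun i => γ (x i)) + ∑ j, r (x j)) ^ 2
      = Φ (fun i => γ (x i)) * H (fun i => γ (x i)) ^ 2
        + ∑ j, (2 * Φ (fun i => γ (x i)) * H (fun i => γ (x i))) * r (x j)
        + ∑ j, ∑ j', (Φ (fun i => γ (x i)) * r (x j')) * r (x j) := by
    intro x
    rw [← mul_sum]
    simp only [← sum_mul, ← mul_sum]
    ring
  simp only [h1, E_add, E_sum]
  have h2 : ∀ j, E (fun x : κ → Z =>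
      (2 * Φ (fun i => γ (x i)) * H (fun i => γ (x i))) * r (x j)) = 0 := by
    intro j
    exact E_mul_noise γ r hr j _ fun x u u' huu => by simp only [comp_update_congr γ x j huu]
  have h3 : ∀ j, ∑ j', E (fun x : κ → Z => (Φ (fun i => γ (x i)) * r (x j')) * r (x j))
      = E (fun x : κ → Z => Φ (fun i => γ (x i)) * r (x j) ^ 2) := by
    intro j
    rw [sum_eq_single j]
    · exact E_congr fun x => by ring
    · intro j' _ hj'
      exact E_mul_noise γ r hr j _ fun x u u' huu => by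
        simp only [comp_update_congr γ x j huu, Function.update_of_ne hj']
    · simp
  simp only [h2, h3, sum_const_zero, add_zero]

lemma E_sq_sum [Nonempty Z] (r : Z → ℝ) (hr : E r = 0) :
    E (fun x : κ → Z => (∑ j, r (x j)) ^ 2) = Fintype.card κ * E (fun u => r u ^ 2) := by
  have := E_sq_noise (κ := κ) (fun _ : Z => ()) r (fun φ => by
    simp only [E_mul_right, hr, zero_mul]) (fun _ => 1) (fun _ => 0)
  simp only [one_mul, zero_add] at this
  rw [this]
  simp only [E_apply _ (fun u => r u ^ 2)]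
  simp [E_zero]

/-- push forward of the uniform measure under a product map -/
lemma E_push {Γ : Type} [Fintype Γ] [DecidableEq Γ] (γ : Z → Γ)
    (h : ∀ φ : Γ → ℝ, E (fun u => φ (γ u)) = E φ) (Φ : (κ → Γ) → ℝ) :
    E (fun x : κ → Z => Φ (fun i => γ (x i))) = E Φ := by
  have h1 : ∀ c' : κ → Γ, Φ c' = ∑ c : κ → Γ, Φ c * ∏ j, (if c' j = c j then (1 : ℝ) else 0) := by
    intro c'
    rw [sum_eq_single c']
    · simp
    · intro c _ hc
      obtain ⟨j, hj⟩ := Function.ne_iff.1 hc
      rw [prod_eq_zero (mem_univ j) (by simp [Ne.symm hj]), mul_zero]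
    · simp
  rw [E_congr (fun x => h1 _), E_congr (f := Φ) h1, E_sum, E_sum]
  refine sum_congr rfl fun c _ => ?_
  rw [E_mul_left, E_mul_left, E_pi_prod (fun j u => if γ u = c j then (1 : ℝ) else 0),
    E_pi_prod (fun j u => if u = c j then (1 : ℝ) else 0)]
  congr 1
  exact prod_congr rfl fun j _ => h (fun u => if u = c j then (1 : ℝ) else 0)

end pi

/-- pigeonhole: some short window carries a proportional share of the mass -/
lemma exists_window {Ω : Type} [Fintype Ω] [Nonempty Ω] (U : Ω → ℝ) (τ : ℝ) (hτ : 0 < τ)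
    (hU : E (fun x => U x ^ 2) ≤ τ ^ 2) (L : ℕ) (hL : 1 ≤ L) :
    ∃ a : ℝ, |a| ≤ 2 * τ ∧
      1 / (2 * L : ℝ) ≤ E (fun x => if |U x - a| ≤ 2 * τ / L then (1 : ℝ) else 0) := by
  have hL' : (1 : ℝ) ≤ L := by exact_mod_cast hL
  have hL0 : (0 : ℝ) < L := by linarith
  let a : ℕ → ℝ := fun i => -2 * τ + (2 * i + 1) * (2 * τ / L)
  have hpt : ∀ x, 1 - U x ^ 2 / (4 * τ ^ 2)
      ≤ ∑ i ∈ range L, (if |U x - a i| ≤ 2 * τ / L then (1 : ℝ) else 0) := by
    intro x
    by_cases hx : |U x| < 2 * τ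
    · have hx' := abs_lt.1 hx
      let i : ℕ := ⌊(U x + 2 * τ) / (4 * τ / L)⌋₊
      have hw : 0 < 4 * τ / L := by positivity
      have hq : 0 ≤ (U x + 2 * τ) / (4 * τ / L) := div_nonneg (by linarith) hw.le
      have hi1 : (i : ℝ) ≤ (U x + 2 * τ) / (4 * τ / L) := Nat.floor_le hq
      have hi2 : (U x + 2 * τ) / (4 * τ / L) < i + 1 := Nat.lt_floor_add_one _
      have hiL : i < L := by
        rw [Nat.floor_lt hq, div_lt_iff₀ hw]
        have : (L : ℝ) * (4 * τ / L) = 4 * τ := by field_simp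
        linarith
      rw [le_div_iff₀ hw] at hi1
      rw [div_lt_iff₀ hw] at hi2
      have e : 4 * τ / L = 2 * (2 * τ / L) := by ring
      have hin : |U x - a i| ≤ 2 * τ / L := by
        simp only [a]
        rw [e] at hi1 hi2
        rw [abs_le]; constructor <;> nlinarith
      have h1 := single_le_sum (f := fun i => if |U x - a i| ≤ 2 * τ / L then (1 : ℝ) else 0)
        (fun i _ => by split_ifs <;> norm_num) (mem_range.2 hiL)
      simp only [hin, if_true] at h1
      have : 0 ≤ U x ^ 2 / (4 * τ ^ 2) := by positivity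
      linarith
    · have h1 : 1 ≤ U x ^ 2 / (4 * τ ^ 2) := by
        rw [le_div_iff₀ (by positivity), ← sq_abs (U x)]
        have := not_lt.1 hx
        nlinarith
      have h2 : 0 ≤ ∑ i ∈ range L, (if |U x - a i| ≤ 2 * τ / L then (1 : ℝ) else 0) :=
        sum_nonneg fun i _ => by split_ifs <;> norm_num
      linarith
  have h1 := E_mono hpt
  rw [E_sum, E_sub, E_const] at h1
  have h2 : E (fun x => U x ^ 2 / (4 * τ ^ 2)) ≤ 1 / 4 := by
    simp only [div_eq_mul_inv _ (4 * τ ^ 2), E_mul_right]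
    rw [← div_eq_mul_inv, div_le_iff₀ (by positivity)]
    linarith
  by_contra hcon
  push Not at hcon
  have h3 : ∑ i ∈ range L, E (fun x => if |U x - a i| ≤ 2 * τ / L then (1 : ℝ) else 0)
      ≤ ∑ _i ∈ range L, 1 / (2 * L : ℝ) := by
    refine sum_le_sum fun i hi => (hcon _ ?_).le
    have hi' : (i : ℝ) + 1 ≤ L := by exact_mod_cast mem_range.1 hi
    have hi0 : (0 : ℝ) ≤ i := Nat.cast_nonneg i
    have e : (L : ℝ) * (2 * τ / L) = 2 * τ := by field_simp
    have hw : 0 < 2 * τ / L := by positivity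
    simp only [a]
    rw [abs_le]; constructor <;> nlinarith
  rw [sum_const, card_range, nsmul_eq_mul] at h3
  have : (L : ℝ) * (1 / (2 * L)) = 1 / 2 := by field_simp
  linarith

end Crest.Agent.H0085
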