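import Crest.Agent.H0085.Junta
import Crest.Agent.H0085.Prob

set_option autoImplicit false
open Finset BigOperators

namespace Crest.Agent.H0085

/-- averaging over the main blocks -/
lemma main_avg {Ω : Type} [Fintype Ω] [Nonempty Ω] (Y : Ω → ℝ) (b : Ω → Bool) (μ v : ℝ)
    (hlaw : ∀ φ : Bool → ℝ, E (fun ω => φ (b ω)) = E φ)
    (hmean : ∀ φ : Bool → ℝ, E (fun ω => (Y ω - μ * sg (b ω)) * φ (b ω)) = 0)
    (hvar : ∀ φ : Bool → ℝ, E (fun ω => (Y ω - μ * sg (b ω)) ^ 2 * φ (b ω))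
      = E (fun ω => v * φ (b ω)))
    {n : ℕ} (Φ : (Fin n → Bool) → ℝ) (c : ℝ) :
    E (fun x : Fin n → Ω => Φ (fun i => b (x i)) * (∑ i, Y (x i) + c) ^ 2)
      = E (fun β : Fin n → Bool => Φ β * ((μ * ∑ i, sg (β i) + c) ^ 2 + n * v)) := by
  have h1 := E_sq_noise (κ := Fin n) b (fun ω => Y ω - μ * sg (b ω)) hmean Φ
    (fun β => μ * ∑ i, sg (β i) + c)
  have h2 : ∀ x : Fin n → Ω, μ * ∑ i, sg (b (x i)) + c + ∑ j, (Y (x j) - μ * sg (b (x j)))
      = ∑ i, Y (x i) + c := by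
    intro x; rw [sum_sub_distrib, ← mul_sum]; ring
  simp only [h2] at h1
  rw [h1]
  have h3 : ∀ j, E (fun x : Fin n → Ω => Φ (fun i => b (x i)) * (Y (x j) - μ * sg (b (x j))) ^ 2)
      = E (fun β : Fin n → Bool => Φ β * v) := by
    intro j
    rw [E_replace b (fun ω => (Y ω - μ * sg (b ω)) ^ 2) (fun _ => v) hvar j Φ]
    exact E_push b hlaw (fun β => Φ β * v)
  simp only [h3]
  rw [E_push b hlaw (fun β => Φ β * (μ * ∑ i, sg (β i) + c) ^ 2)]
  simp only [mul_add, E_add, sum_const, card_univ, Fintype.card_fin, nsmul_eq_mul]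
  congr 1
  rw [← E_mul_left]
  exact E_congr fun β => by ring

lemma noise_avg {Z Γ : Type} [Fintype Z] [Nonempty Z] (γ : Z → Γ) (r : Z → ℝ) (ρ : ℝ)
    (hr : ∀ φ : Γ → ℝ, E (fun u => r u * φ (γ u)) = 0) (hρ : ∀ u, r u ^ 2 ≤ ρ)
    {h : ℕ} (Φ : (Fin h → Γ) → ℝ) (hΦ : ∀ w, 0 ≤ Φ w) :
    E (fun z : Fin h → Z => Φ (fun j => γ (z j)) * (∑ j, r (z j)) ^ 2)
      ≤ E (fun z : Fin h → Z => Φ (fun j => γ (z j)) * (h * ρ)) := by
  have h1 := E_sq_noise (κ := Fin h) γ r hr Φ (fun _ => 0)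
  simp only [zero_add, ne_eq, OfNat.ofNat_ne_zero, not_false_eq_true, zero_pow, mul_zero,
    E_zero] at h1
  rw [h1]
  have h2 : ∀ j, E (fun z : Fin h → Z => Φ (fun j => γ (z j)) * r (z j) ^ 2)
      ≤ E (fun z : Fin h → Z => Φ (fun j => γ (z j)) * ρ) :=
    fun j => E_mono fun z => mul_le_mul_of_nonneg_left (hρ _) (hΦ _)
  refine (sum_le_sum fun j _ => h2 j).trans (le_of_eq ?_)
  simp only [sum_const, card_univ, Fintype.card_fin, nsmul_eq_mul]
  rw [← E_mul_left]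
  exact E_congr fun z => by ring

/-- the second moment of the total score on a set of classes -/
lemma sq_bound {Ω : Type} [Fintype Ω] [Nonempty Ω] (Y : Ω → ℝ) (b : Ω → Bool) (μ v : ℝ)
    (hlaw : ∀ φ : Bool → ℝ, E (fun ω => φ (b ω)) = E φ)
    (hmean : ∀ φ : Bool → ℝ, E (fun ω => (Y ω - μ * sg (b ω)) * φ (b ω)) = 0)
    (hvar : ∀ φ : Bool → ℝ, E (fun ω => (Y ω - μ * sg (b ω)) ^ 2 * φ (b ω))
      = E (fun ω => v * φ (b ω)))
    {Z Γ : Type} [Fintype Z] [Nonempty Z] (W : Z → ℝ) (γ : Z → Γ) (m : Γ → ℝ) (ρ : ℝ)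
    (hr : ∀ φ : Γ → ℝ, E (fun u => (W u - m (γ u)) * φ (γ u)) = 0)
    (hρ : ∀ u, (W u - m (γ u)) ^ 2 ≤ ρ)
    {n h : ℕ} (Φ : (Fin h → Γ) → (Fin n → Bool) → ℝ) (hΦ : ∀ w β, 0 ≤ Φ w β) (s c : ℝ) :
    E (fun p : (Fin n → Ω) × (Fin h → Z) => Φ (fun j => γ (p.2 j)) (fun i => b (p.1 i)) *
        (∑ i, Y (p.1 i) + ∑ j, W (p.2 j) + c - s) ^ 2)
      ≤ E (fun z : Fin h → Z => E (fun β : Fin n → Bool => Φ (fun j => γ (z j)) β *
        (n * v + 2 * μ ^ 2 * (∑ i, sg (β i)) ^ 2 + 6 * (∑ j, m (γ (z j)) - s) ^ 2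
          + 6 * (h * ρ) + 6 * c ^ 2))) := by
  rw [E_prod']
  have h1 : ∀ z : Fin h → Z, E (fun x : Fin n → Ω =>
      Φ (fun j => γ (z j)) (fun i => b (x i)) * (∑ i, Y (x i) + ∑ j, W (z j) + c - s) ^ 2)
      ≤ E (fun β : Fin n → Bool => Φ (fun j => γ (z j)) β *
        (n * v + 2 * μ ^ 2 * (∑ i, sg (β i)) ^ 2 + 6 * (∑ j, m (γ (z j)) - s) ^ 2 + 6 * c ^ 2)
        + 6 * (Φ (fun j => γ (z j)) β * (∑ j, (W (z j) - m (γ (z j)))) ^ 2)) := by
    intro z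
    have := main_avg Y b μ v hlaw hmean hvar (Φ (fun j => γ (z j))) (∑ j, W (z j) + c - s)
    simp only [← add_sub_assoc, ← add_assoc] at this
    rw [this]
    refine E_mono fun β => ?_
    rw [sum_sub_distrib]
    have h0 := hΦ (fun j => γ (z j)) β
    generalize Φ (fun j => γ (z j)) β = φ at *
    generalize ∑ i, sg (β i) = S
    generalize ∑ j, W (z j) = U'
    generalize ∑ j, m (γ (z j)) = U
    have : (μ * S + U' + c - s) ^ 2
        ≤ 2 * μ ^ 2 * S ^ 2 + 6 * (U - s) ^ 2 + 6 * c ^ 2 + 6 * (U' - U) ^ 2 := by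
      nlinarith [sq_nonneg (μ * S - (U' + c - s)), sq_nonneg ((U - s) - c),
        sq_nonneg ((U - s) - (U' - U)), sq_nonneg (c - (U' - U))]
    nlinarith [mul_le_mul_of_nonneg_left this h0]
  refine (E_mono h1).trans ?_
  rw [E_comm, E_comm (fun (z : Fin h → Z) (β : Fin n → Bool) => _)]
  refine E_mono fun β => ?_
  have h2 := noise_avg γ (fun u => W u - m (γ u)) ρ hr hρ (fun w => Φ w β) (fun w => hΦ w β)
  rw [E_add, E_mul_left]
  have h3 : E (fun z : Fin h → Z => Φ (fun j => γ (z j)) β *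
        (n * v + 2 * μ ^ 2 * (∑ i, sg (β i)) ^ 2 + 6 * (∑ j, m (γ (z j)) - s) ^ 2
          + 6 * (h * ρ) + 6 * c ^ 2))
      = E (fun z : Fin h → Z => Φ (fun j => γ (z j)) β *
        (n * v + 2 * μ ^ 2 * (∑ i, sg (β i)) ^ 2 + 6 * (∑ j, m (γ (z j)) - s) ^ 2 + 6 * c ^ 2))
        + 6 * E (fun z : Fin h → Z => Φ (fun j => γ (z j)) β * (h * ρ)) := by
    rw [← E_mul_left, ← E_add]
    exact E_congr fun z => by ring
  rw [h3]
  linarith

lemma E_erase {κ Z : Type} [Fintype κ] [DecidableEq κ] [Fintype Z] (ψ : κ → Z → ℝ) (l : κ)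
    (g : Z → ℝ) :
    E (fun x : κ → Z => g (x l) * ∏ j ∈ univ.erase l, ψ j (x j))
      = E g * ∏ j ∈ univ.erase l, E (ψ j) := by
  have h := E_pi_prod (Function.update ψ l g)
  rw [← mul_prod_erase univ _ (mem_univ l), Function.update_self] at h
  rw [prod_congr rfl (fun j hj => by rw [Function.update_of_ne (ne_of_mem_erase hj)])] at h
  rw [← h]
  refine E_congr fun x => ?_
  rw [← mul_prod_erase univ _ (mem_univ l), Function.update_self]
  congr 1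
  exact prod_congr rfl (fun j hj => by rw [Function.update_of_ne (ne_of_mem_erase hj)])

/-- averaging over the fibre blocks -/
lemma fiber_avg {Z : Type} [Fintype Z] [Nonempty Z] (W : Z → ℝ) (K : ℝ)
    {R : ℕ} (α : Fin R → Z → ℝ) (hα : ∀ l u, α l u = 0 ∨ α l u = 1) (a δ p : Fin R → ℝ)
    (δf : ℝ) (hδ : ∀ l u, α l u = 1 → |W u - a l| ≤ δ l) (hδf : ∑ l, δ l ≤ δf)
    (hδ0 : ∀ l, 0 ≤ δ l) (hp0 : ∀ l, 0 < p l) (hp : ∀ l, p l ≤ E (α l))
    (ha : ∀ l, E (fun u => (W u - a l) ^ 2) ≤ 10 * K)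
    (T0 : ℝ → ℝ) (T : Fin R → ℝ → ℝ) (I : ℝ) (J q : Fin R → ℝ) (hJ : ∀ l, 0 ≤ J l)
    (hq : ∀ l, 0 ≤ q l) (hK : 0 ≤ K)
    (h0 : ∀ c, |c| ≤ δf → I ≤ T0 c)
    (h1 : ∀ l c₁ c₂, |c₁| ≤ δf → -(J l + 12 * c₂ ^ 2 * q l) ≤ T l (c₁ + c₂)) :
    (∏ l, E (α l)) * (I - ∑ l, (J l + 120 * K * q l) / p l)
      ≤ E (fun φ : Fin R → Z => (∏ l, α l (φ l)) * T0 (∑ l, (W (φ l) - a l))
        + ∑ l, ((∏ j ∈ univ.erase l, α j (φ j)) - ∏ j, α j (φ j)) *
          T l (∑ j, (W (φ j) - a j))) := by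
  have hα0 : ∀ l u, 0 ≤ α l u := fun l u => by rcases hα l u with h | h <;> simp [h]
  have hα1 : ∀ l u, α l u ≤ 1 := fun l u => by rcases hα l u with h | h <;> simp [h]
  have hsum : ∀ (φ : Fin R → Z) (S : Finset (Fin R)), ∏ j ∈ S, α j (φ j) ≠ 0 →
      |∑ j ∈ S, (W (φ j) - a j)| ≤ δf := by
    intro φ S hS
    refine (abs_sum_le_sum_abs _ _).trans (le_trans ?_ hδf)
    refine (sum_le_sum fun j hj => hδ j (φ j) ?_).trans
      (sum_le_sum_of_subset_of_nonneg (subset_univ S) fun j _ _ => hδ0 j)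
    exact (hα j (φ j)).resolve_left (prod_ne_zero_iff.1 hS j hj)
  have e1 : ∀ φ : Fin R → Z, (∏ l, α l (φ l)) * I
      ≤ (∏ l, α l (φ l)) * T0 (∑ l, (W (φ l) - a l)) := by
    intro φ
    by_cases h : ∏ l, α l (φ l) = 0
    · simp [h]
    · exact mul_le_mul_of_nonneg_left (h0 _ (hsum φ univ h)) (prod_nonneg fun l _ => hα0 _ _)
  have e2 : ∀ (l : Fin R) (φ : Fin R → Z),
      -((J l + 12 * (W (φ l) - a l) ^ 2 * q l) * ∏ j ∈ univ.erase l, α j (φ j))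
      ≤ ((∏ j ∈ univ.erase l, α j (φ j)) - ∏ j, α j (φ j)) * T l (∑ j, (W (φ j) - a j)) := by
    intro l φ
    rw [← mul_prod_erase univ (fun j => α j (φ j)) (mem_univ l)]
    by_cases h : ∏ j ∈ univ.erase l, α j (φ j) = 0
    · simp [h]
    have hB : 0 ≤ ∏ j ∈ univ.erase l, α j (φ j) := prod_nonneg fun l _ => hα0 _ _
    have h2 := h1 l _ (W (φ l) - a l) (hsum φ _ h)
    rw [sum_erase_add _ _ (mem_univ l)] at h2
    have h3 : 0 ≤ J l + 12 * (W (φ l) - a l) ^ 2 * q l := by have := hJ l; have := hq l; positivity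
    rcases hα l (φ l) with h4 | h4
    · rw [h4]; nlinarith [mul_le_mul_of_nonneg_left h2 hB]
    · rw [h4]; nlinarith [mul_nonneg h3 hB]
  refine le_trans ?_ (E_mono fun φ => add_le_add (e1 φ) (sum_le_sum fun l _ => e2 l φ))
  rw [E_add, E_mul_right, E_pi_prod, E_sum, mul_sub, sub_eq_add_neg, mul_sum, ← sum_neg_distrib]
  refine add_le_add le_rfl (sum_le_sum fun l _ => ?_)
  rw [E_neg, neg_le_neg_iff, E_erase α l (fun u => J l + 12 * (W u - a l) ^ 2 * q l),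
    ← mul_prod_erase univ (fun j => E (α j)) (mem_univ l)]
  have hB : 0 ≤ ∏ j ∈ univ.erase l, E (α j) := prod_nonneg fun l _ => E_nonneg (hα0 _)
  have h2 : E (fun u => J l + 12 * (W u - a l) ^ 2 * q l) ≤ J l + 120 * K * q l := by
    rw [E_add, E_const, E_mul_right, E_mul_left]
    nlinarith [mul_le_mul_of_nonneg_right (ha l) (hq l)]
  have h3 : 0 ≤ J l + 120 * K * q l := by have := hJ l; have := hq l; positivity
  have h4 : J l + 120 * K * q l ≤ E (α l) * ((J l + 120 * K * q l) / p l) := by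
    rw [← mul_div_assoc, le_div_iff₀ (hp0 l)]
    nlinarith [mul_le_mul_of_nonneg_left (hp l) h3]
  nlinarith [mul_le_mul_of_nonneg_right (h2.trans h4) hB]

lemma sum_sq_le_cube (v : ℕ) : ∑ l ∈ range v, ((l : ℝ) + 1) ^ 2 ≤ (v : ℝ) ^ 3 := by
  have : ∀ l ∈ range v, ((l : ℝ) + 1) ^ 2 ≤ (v : ℝ) ^ 2 := by
    intro l hl
    have : (l : ℝ) + 1 ≤ v := by exact_mod_cast mem_range.1 hl
    exact pow_le_pow_left₀ (by positivity) this 2
  refine (sum_le_card_nsmul _ _ _ this).trans (le_of_eq ?_)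
  rw [card_range, nsmul_eq_mul]; ring

lemma sum_ind_le_cube (R v : ℕ) (τ : ℤ) (hv : -(v : ℤ) ≤ τ) :
    ∑ l : Fin R, (if ((l : ℕ) : ℤ) < -τ then (1 : ℝ) else 0) * ((l : ℕ) + 1) ^ 2
      ≤ (if τ < 0 then (1 : ℝ) else 0) * (v : ℝ) ^ 3 := by
  by_cases h : τ < 0
  · simp only [h, if_true, one_mul, ite_mul, zero_mul]
    refine le_trans ?_ (sum_sq_le_cube v)
    rw [Fin.sum_univ_eq_sum_range (fun l => if (l : ℤ) < -τ then ((l : ℝ) + 1) ^ 2 else 0) R,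
      ← sum_filter]
    refine sum_le_sum_of_subset_of_nonneg ?_ fun _ _ _ => by positivity
    intro l hl
    simp only [mem_filter, mem_range] at hl ⊢
    omega
  · simp only [h, if_false, zero_mul]
    refine le_of_eq (sum_eq_zero fun l _ => ?_)
    rw [if_neg (by omega), zero_mul]

/-- the loss from rounding on one slice -/
lemma slice_err {B : Type} [Fintype B] [Nonempty B] (τ : B → ℤ) (f0 t G : B → ℝ) (P ε : ℝ)
    (R v : ℕ) (hτ : ∀ x, τ x ≤ 1) (hv : ∀ x, -(v : ℤ) ≤ τ x) (hf0 : ∀ x, 0 ≤ f0 x ∧ f0 x ≤ 1)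
    (hG : ∀ x, |G x| ≤ P) (hobj : ∑ x, G x * t x ≤ ∑ x, G x * f0 x)
    (hε : 1 ≤ ε ∨ E (fun x => |(τ x : ℝ) - f0 x|) ≤ ε) :
    E (fun x => t x * G x) - P * (ε * (1 + 320 * (v : ℝ) ^ 3))
      ≤ E (fun x => (if τ x = 1 then (1 : ℝ) else 0) * G x)
        - ∑ l : Fin R, E (fun x => (if ((l : ℕ) : ℤ) < -τ x then (1 : ℝ) else 0) * P)
          * (320 * ((l : ℕ) + 1) ^ 2) := by
  have hP : 0 ≤ P := (abs_nonneg _).trans (hG (Classical.arbitrary B))
  have h1 : E (fun x => t x * G x) ≤ E (fun x => f0 x * G x) := by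
    simp only [E, mul_comm _ (G _)]
    exact div_le_div_of_nonneg_right hobj (Nat.cast_nonneg _)
  let d : B → ℝ := fun x => min 1 |(τ x : ℝ) - f0 x|
  have hd : E d ≤ ε := by
    rcases hε with h | h
    · exact (E_le_const fun x => min_le_left _ _).trans h
    · exact (E_mono fun x => min_le_right _ _).trans h
  have h2 : ∀ x, |(if τ x = 1 then (1 : ℝ) else 0) - f0 x| ≤ d x := by
    intro x
    have := hf0 x
    refine le_min ?_ ?_
    · split_ifs <;> rw [abs_le] <;> constructor <;> linarith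
    · split_ifs with h
      · simp [h]
      · have h3 : τ x ≤ 0 := by have := hτ x; omega
        have h4 : (τ x : ℝ) ≤ 0 := by exact_mod_cast h3
        rw [abs_of_nonpos (by linarith), abs_of_nonpos (by linarith)]
        linarith
  have h3 : ∀ x, (if τ x < 0 then (1 : ℝ) else 0) ≤ d x := by
    intro x
    have := hf0 x
    refine le_min ?_ ?_
    · split_ifs <;> norm_num
    · split_ifs with h
      · have h3 : τ x ≤ -1 := by omega
        have h4 : (τ x : ℝ) ≤ -1 := by exact_mod_cast h3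
        rw [abs_of_nonpos (by linarith)]
        linarith
      · exact abs_nonneg _
  have h4 : ∀ x, f0 x * G x - P * (d x * (1 + 320 * (v : ℝ) ^ 3))
      ≤ (if τ x = 1 then (1 : ℝ) else 0) * G x
        - ∑ l : Fin R, ((if ((l : ℕ) : ℤ) < -τ x then (1 : ℝ) else 0) * P)
          * (320 * ((l : ℕ) + 1) ^ 2) := by
    intro x
    have e1 : ∑ l : Fin R, ((if ((l : ℕ) : ℤ) < -τ x then (1 : ℝ) else 0) * P)
          * (320 * ((l : ℕ) + 1) ^ 2) = 320 * P *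
        ∑ l : Fin R, (if ((l : ℕ) : ℤ) < -τ x then (1 : ℝ) else 0) * ((l : ℕ) + 1) ^ 2 := by
      rw [mul_sum]; exact sum_congr rfl fun l _ => by ring
    have e2 := sum_ind_le_cube R v (τ x) (hv x)
    have e3 : (if τ x < 0 then (1 : ℝ) else 0) * (v : ℝ) ^ 3 ≤ d x * (v : ℝ) ^ 3 :=
      mul_le_mul_of_nonneg_right (h3 x) (by positivity)
    have e4 : |((if τ x = 1 then (1 : ℝ) else 0) - f0 x) * G x| ≤ d x * P := by
      rw [abs_mul]
      exact mul_le_mul (h2 x) (hG x) (abs_nonneg _) ((abs_nonneg _).trans (h2 x))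
    have e5 := (abs_le.1 e4).1
    rw [e1]
    nlinarith [mul_le_mul_of_nonneg_left (e2.trans e3) hP]
  have h5 := E_mono h4
  rw [E_sub, E_sub, E_mul_left, E_mul_right, E_sum] at h5
  simp only [E_mul_right] at h5 ⊢
  have h6 : P * (E d * (1 + 320 * (v : ℝ) ^ 3)) ≤ P * (ε * (1 + 320 * (v : ℝ) ^ 3)) := by
    gcongr
  linarith

/-- second moment of the class means -/
lemma mean_sq_le {Z Γ : Type} [Fintype Z] [Nonempty Z] (W : Z → ℝ) (γ : Z → Γ) (m : Γ → ℝ)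
    (hr : ∀ φ : Γ → ℝ, E (fun u => (W u - m (γ u)) * φ (γ u)) = 0)
    {h : ℕ} (Φ : (Fin h → Γ) → ℝ) (hΦ : ∀ w, 0 ≤ Φ w) :
    E (fun z : Fin h → Z => Φ (fun j => γ (z j)) * (∑ j, m (γ (z j))) ^ 2)
      ≤ E (fun z : Fin h → Z => Φ (fun j => γ (z j)) * (∑ j, W (z j)) ^ 2) := by
  have h1 := E_sq_noise (κ := Fin h) γ (fun u => W u - m (γ u)) hr Φ (fun w => ∑ j, m (w j))
  simp only [sum_sub_distrib, add_sub_cancel] at h1
  rw [h1]
  have : 0 ≤ ∑ j, E (fun x : Fin h → Z => Φ (fun i => γ (x i)) * (W (x j) - m (γ (x j))) ^ 2) :=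
    sum_nonneg fun j _ => E_nonneg fun x => mul_nonneg (hΦ _) (sq_nonneg _)
  linarith

open Classical in
lemma noagree_bound {Z Γ : Type} [Fintype Z] [Nonempty Z] (γ : Z → Γ) (y : Γ)
    (p : ℝ) (hp : p ≤ E (fun u => if γ u = y then (1 : ℝ) else 0)) {h : ℕ} (j : Fin h)
    (g : Z → ℝ) (hg : ∀ u, 0 ≤ g u) :
    E (fun z : Fin h → Z => (if ∃ i, γ (z i) = y then (0 : ℝ) else 1) * g (z j))
      ≤ E g * (1 - p) ^ (h - 1) := by
  have h1 : ∀ z : Fin h → Z, (if ∃ i, γ (z i) = y then (0 : ℝ) else 1) * g (z j)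
      ≤ g (z j) * ∏ i ∈ univ.erase j, (1 - if γ (z i) = y then (1 : ℝ) else 0) := by
    intro z
    split_ifs with hz
    · rw [zero_mul]
      exact mul_nonneg (hg _) (prod_nonneg fun i _ => by split_ifs <;> norm_num)
    · push Not at hz
      simp [hz]
  refine (E_mono h1).trans ?_
  rw [E_erase (fun _ u => 1 - if γ u = y then (1 : ℝ) else 0) j g]
  refine mul_le_mul_of_nonneg_left ?_ (E_nonneg hg)
  rw [prod_const, card_erase_of_mem (mem_univ j), card_univ, Fintype.card_fin]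
  refine pow_le_pow_left₀ (E_nonneg fun u => by split_ifs <;> norm_num) ?_ _
  rw [E_sub, E_const]
  linarith

end Crest.Agent.H0085
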