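import Crest.Agent.H0085.Junta
import Crest.Agent.H0085.Prob

set_option autoImplicit false
open Finset BigOperators

namespace Crest.Agent.H0085

/-- a Boolean cube in disguise, with weights on the coordinates -/
structure Model where
  ι : Type
  [fι : Fintype ι]
  [dι : DecidableEq ι]
  Ω : Type
  [fΩ : Fintype Ω]
  e : Ω ≃ (ι → Bool)
  w : ι → ℝ
  hw : ∀ i, |w i| ≤ 1

attribute [instance] Model.fι Model.dι Model.fΩ

instance (M : Model) : Nonempty M.Ω := ⟨M.e.symm (fun _ => true)⟩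

namespace Model

def Low (M : Model) (d : ℕ) : Submodule ℝ (M.Ω → ℝ) :=
  (H0085.Low M.ι d).comap (LinearMap.funLeft ℝ ℝ M.e.symm)

lemma mem_Low {M : Model} {d : ℕ} {φ : M.Ω → ℝ} :
    φ ∈ M.Low d ↔ (fun x => φ (M.e.symm x)) ∈ H0085.Low M.ι d := Iff.rfl

def S (M : Model) (ω : M.Ω) : ℝ := ∑ i, M.w i * sg (M.e ω i)

lemma Low_mono (M : Model) {a b : ℕ} (h : a ≤ b) {φ : M.Ω → ℝ} (hφ : φ ∈ M.Low a) :
    φ ∈ M.Low b := H0085.Low_mono h hφ

lemma mul_mem (M : Model) {a b : ℕ} {φ ψ : M.Ω → ℝ} (hφ : φ ∈ M.Low a) (hψ : ψ ∈ M.Low b) :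
    (fun ω => φ ω * ψ ω) ∈ M.Low (a + b) := mul_mem_Low hφ hψ

lemma const_mem (M : Model) (d : ℕ) (c : ℝ) : (fun _ => c) ∈ M.Low d := const_mem_Low d c

lemma sum_mem (M : Model) {d : ℕ} {α : Type} (s : Finset α) (f : α → M.Ω → ℝ)
    (h : ∀ a ∈ s, f a ∈ M.Low d) : (fun ω => ∑ a ∈ s, f a ω) ∈ M.Low d := by
  have := Submodule.sum_mem (M.Low d) h
  convert this using 1
  funext ω; simp

lemma add_mem (M : Model) {d : ℕ} {φ ψ : M.Ω → ℝ} (hφ : φ ∈ M.Low d) (hψ : ψ ∈ M.Low d) :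
    (fun ω => φ ω + ψ ω) ∈ M.Low d := Submodule.add_mem _ hφ hψ

/-- global negation -/
def neg (M : Model) : M.Ω ≃ M.Ω where
  toFun ω := M.e.symm (fun i => !(M.e ω i))
  invFun ω := M.e.symm (fun i => !(M.e ω i))
  left_inv ω := by simp
  right_inv ω := by simp

lemma S_neg (M : Model) (ω : M.Ω) : M.S (M.neg ω) = - M.S ω := by
  simp [S, neg, sg_not]

lemma neg_mem (M : Model) {d : ℕ} {φ : M.Ω → ℝ} (hφ : φ ∈ M.Low d) :
    (fun ω => φ (M.neg ω)) ∈ M.Low d := by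
  have := comp_mem_Low (fun i => i) (fun _ b => !b) (mem_Low.1 hφ)
  rw [mem_Low]
  simpa [neg] using this

lemma E_S (M : Model) : E M.S = 0 := by
  have h1 := E_equiv M.neg M.S
  simp only [S_neg, E_neg] at h1
  linarith

def prod (M₁ M₂ : Model) : Model where
  ι := M₁.ι ⊕ M₂.ι
  Ω := M₁.Ω × M₂.Ω
  e := (Equiv.prodCongr M₁.e M₂.e).trans (Equiv.sumArrowEquivProdArrow _ _ _).symm
  w := Sum.elim M₁.w M₂.w
  hw := by rintro (i | i); exacts [M₁.hw i, M₂.hw i]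

lemma prod_S (M₁ M₂ : Model) (ω : M₁.Ω × M₂.Ω) :
    (M₁.prod M₂).S ω = M₁.S ω.1 + M₂.S ω.2 := by
  simp only [S]
  exact Fintype.sum_sum_type _

lemma fst_mem {M₁ : Model} (M₂ : Model) {d : ℕ} {φ : M₁.Ω → ℝ} (hφ : φ ∈ M₁.Low d) :
    (fun ω : M₁.Ω × M₂.Ω => φ ω.1) ∈ (M₁.prod M₂).Low d :=
  comp_mem_Low (ι' := M₁.ι ⊕ M₂.ι) Sum.inl (fun _ b => b) (mem_Low.1 hφ)

lemma snd_mem (M₁ : Model) {M₂ : Model} {d : ℕ} {φ : M₂.Ω → ℝ} (hφ : φ ∈ M₂.Low d) :
    (fun ω : M₁.Ω × M₂.Ω => φ ω.2) ∈ (M₁.prod M₂).Low d :=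
  comp_mem_Low (ι' := M₁.ι ⊕ M₂.ι) Sum.inr (fun _ b => b) (mem_Low.1 hφ)

lemma prod_mul_mem {M₁ M₂ : Model} {a b : ℕ} {φ : M₁.Ω → ℝ} {ψ : M₂.Ω → ℝ}
    (hφ : φ ∈ M₁.Low a) (hψ : ψ ∈ M₂.Low b) :
    (fun ω : M₁.Ω × M₂.Ω => φ ω.1 * ψ ω.2) ∈ (M₁.prod M₂).Low (a + b) :=
  (M₁.prod M₂).mul_mem (fst_mem M₂ hφ) (snd_mem M₁ hψ)

def pow (M : Model) (m : ℕ) : Model where
  ι := Fin m × M.ι
  Ω := Fin m → M.Ω
  e := (Equiv.piCongrRight fun _ => M.e).trans (Equiv.curry _ _ _).symm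
  w := fun p => M.w p.2
  hw := fun p => M.hw p.2

lemma pow_S (M : Model) (m : ℕ) (x : Fin m → M.Ω) : (M.pow m).S x = ∑ j, M.S (x j) := by
  simp only [S]
  exact Fintype.sum_prod_type _

lemma apply_mem {M : Model} {m : ℕ} (j : Fin m) {d : ℕ} {φ : M.Ω → ℝ} (hφ : φ ∈ M.Low d) :
    (fun x : Fin m → M.Ω => φ (x j)) ∈ (M.pow m).Low d :=
  comp_mem_Low (ι' := Fin m × M.ι) (fun i => (j, i)) (fun _ b => b) (mem_Low.1 hφ)

/-- one coin with weight `c` -/
def bit (c : ℝ) (hc : |c| ≤ 1) : Model where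
  ι := Unit
  Ω := Bool
  e := (Equiv.funUnique Unit Bool).symm
  w := fun _ => c
  hw := fun _ => hc

lemma bit_S (c : ℝ) (hc : |c| ≤ 1) (b : Bool) : (bit c hc).S b = c * sg b := by
  simp only [S]
  exact Fintype.sum_unique (ι := Unit) _

lemma bit_mem (c : ℝ) (hc : |c| ≤ 1) (φ : Bool → ℝ) : φ ∈ (bit c hc).Low 1 := by
  refine mem_Low_of_dep univ (by simp [bit]) ?_
  intro x y h
  rw [show x = y from funext fun i => h i (mem_univ _)]

end Model

/-- a partition of the cube into cells of degree at most `D`, with the conditional mean of the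
score -/
structure Scheme (M : Model) where
  C : Type
  [fC : Fintype C]
  π : M.Ω → C
  y : C → ℝ
  D : ℕ
  deg : ∀ φ : C → ℝ, (fun ω => φ (π ω)) ∈ M.Low D
  cond : ∀ φ : C → ℝ, E (fun ω => M.S ω * φ (π ω)) = E (fun ω => y (π ω) * φ (π ω))

attribute [instance] Scheme.fC

namespace Scheme

noncomputable def info {M : Model} (s : Scheme M) : ℝ := E (fun ω => s.y (s.π ω) ^ 2)

lemma info_nonneg {M : Model} (s : Scheme M) : 0 ≤ s.info := E_nonneg fun _ => sq_nonneg _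

lemma E_y {M : Model} (s : Scheme M) : E (fun ω => s.y (s.π ω)) = 0 := by
  have := s.cond (fun _ => 1)
  simp only [mul_one] at this
  rw [← this]; exact M.E_S

/-- functions of two partitions -/
lemma prod_deg {M₁ M₂ : Model} {A B : Type} [Fintype A] (π₁ : M₁.Ω → A) (π₂ : M₂.Ω → B)
    {a b : ℕ} (h₁ : ∀ φ : A → ℝ, (fun ω => φ (π₁ ω)) ∈ M₁.Low a)
    (Φ : A → B → ℝ) (h₂ : ∀ c, (fun ω => Φ c (π₂ ω)) ∈ M₂.Low b) :
    (fun ω : M₁.Ω × M₂.Ω => Φ (π₁ ω.1) (π₂ ω.2)) ∈ (M₁.prod M₂).Low (a + b) := by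
  classical
  have := (M₁.prod M₂).sum_mem univ
    (fun (c : A) (ω : M₁.Ω × M₂.Ω) => (if π₁ ω.1 = c then (1 : ℝ) else 0) * Φ c (π₂ ω.2))
    (fun c _ => Model.prod_mul_mem (h₁ fun c' => if c' = c then (1 : ℝ) else 0) (h₂ c))
  refine (congrArg (· ∈ (M₁.prod M₂).Low (a + b)) (funext fun ω => ?_)).mp this
  simp

noncomputable def prod {M₁ M₂ : Model} (s₁ : Scheme M₁) (s₂ : Scheme M₂) : Scheme (M₁.prod M₂) where
  C := s₁.C × s₂.C
  π := fun ω : M₁.Ω × M₂.Ω => (s₁.π ω.1, s₂.π ω.2)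
  y := fun c => s₁.y c.1 + s₂.y c.2
  D := s₁.D + s₂.D
  deg := fun φ => prod_deg s₁.π s₂.π s₁.deg (fun a b => φ (a, b)) (fun a => s₂.deg fun b => φ (a, b))
  cond := fun φ => by
    change E (fun ω : M₁.Ω × M₂.Ω => (M₁.prod M₂).S ω * φ (s₁.π ω.1, s₂.π ω.2))
      = E (fun ω : M₁.Ω × M₂.Ω => (s₁.y (s₁.π ω.1) + s₂.y (s₂.π ω.2)) * φ (s₁.π ω.1, s₂.π ω.2))
    simp only [Model.prod_S, add_mul, E_add]
    congr 1
    · rw [E_prod', E_prod']
      exact E_congr fun b => s₁.cond (fun a => φ (a, s₂.π b))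
    · rw [E_prod, E_prod]
      exact E_congr fun a => s₂.cond (fun b => φ (s₁.π a, b))

lemma prod_info {M₁ M₂ : Model} (s₁ : Scheme M₁) (s₂ : Scheme M₂) :
    (s₁.prod s₂).info = s₁.info + s₂.info := by
  change E (fun ω : M₁.Ω × M₂.Ω => (s₁.y (s₁.π ω.1) + s₂.y (s₂.π ω.2)) ^ 2) = _
  have h : ∀ ω : M₁.Ω × M₂.Ω, (s₁.y (s₁.π ω.1) + s₂.y (s₂.π ω.2)) ^ 2
      = s₁.y (s₁.π ω.1) ^ 2 * 1 + 2 * (s₁.y (s₁.π ω.1) * s₂.y (s₂.π ω.2))
        + 1 * s₂.y (s₂.π ω.2) ^ 2 := fun ω => by ring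
  simp only [h, E_add, E_mul_left]
  rw [E_prod_mul (fun a => s₁.y (s₁.π a) ^ 2) (fun _ => 1),
    E_prod_mul (fun a => s₁.y (s₁.π a)) (fun b => s₂.y (s₂.π b)), E_y, E_const,
    E_prod' (fun ω : M₁.Ω × M₂.Ω => s₂.y (s₂.π ω.2) ^ 2)]
  simp [E_const, info]

/-- functions of the cells of some of the blocks -/
lemma pow_deg {M : Model} {A : Type} [Fintype A] (π : M.Ω → A) {D : ℕ}
    (h : ∀ φ : A → ℝ, (fun ω => φ (π ω)) ∈ M.Low D) {m : ℕ} (T : Finset (Fin m))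
    (Φ : (Fin m → A) → ℝ) (hΦ : DepOn T Φ) :
    (fun x : Fin m → M.Ω => Φ (fun j => π (x j))) ∈ (M.pow m).Low (T.card * D) := by
  classical
  induction T using Finset.induction_on generalizing Φ with
  | empty =>
    have : (fun x : Fin m → M.Ω => Φ (fun j => π (x j)))
        = fun _ => Φ (fun _ => π (Classical.arbitrary _)) := by
      funext x; exact hΦ _ _ (by simp)
    rw [this]; exact (M.pow m).const_mem _ _
  | insert i T hi ih =>
    have := (M.pow m).sum_mem univ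
      (fun (c : A) (x : Fin m → M.Ω) => (if π (x i) = c then (1 : ℝ) else 0) *
        Φ (Function.update (fun j => π (x j)) i c))
      (fun c _ => (M.pow m).mul_mem (Model.apply_mem i (h fun c' => if c' = c then (1 : ℝ) else 0))
        (ih (fun σ => Φ (Function.update σ i c)) (fun σ σ' hσ => hΦ _ _ fun j hj => by
          by_cases hji : j = i
          · subst hji; simp
          · simp only [Function.update_of_ne hji]
            exact hσ j ((mem_insert.1 hj).resolve_left hji))))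
    rw [card_insert_of_notMem hi, add_mul, one_mul, add_comm]
    refine (congrArg (· ∈ (M.pow m).Low (D + T.card * D)) (funext fun x => ?_)).mp this
    simp only [ite_mul, one_mul, zero_mul, sum_ite_eq, mem_univ, if_true]
    congr 1
    exact (Function.update_eq_self i (fun j => π (x j)))

noncomputable def pow {M : Model} (s : Scheme M) (m : ℕ) : Scheme (M.pow m) where
  C := Fin m → s.C
  fC := by classical exact Pi.instFintype
  π := fun (x : Fin m → M.Ω) j => s.π (x j)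
  y := fun c => ∑ j, s.y (c j)
  D := m * s.D
  deg := fun φ => by
    have := pow_deg s.π s.deg (univ : Finset (Fin m)) φ
      (fun x y h => by rw [show x = y from funext fun i => h i (mem_univ _)])
    rw [card_univ, Fintype.card_fin] at this
    exact this
  cond := fun φ => by
    change E (fun x : Fin m → M.Ω => (M.pow m).S x * φ (fun j => s.π (x j)))
      = E (fun x : Fin m → M.Ω => (∑ j, s.y (s.π (x j))) * φ (fun j => s.π (x j)))
    simp only [Model.pow_S, sum_mul, E_sum]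
    refine sum_congr rfl fun j _ => ?_
    have := E_replace s.π M.S (fun ω => s.y (s.π ω)) s.cond j φ
    simpa only [mul_comm] using this

lemma pow_info {M : Model} (s : Scheme M) (m : ℕ) : (s.pow m).info = m * s.info := by
  change E (fun x : Fin m → M.Ω => (∑ j, s.y (s.π (x j))) ^ 2) = _
  rw [E_sq_sum (fun ω => s.y (s.π ω)) s.E_y]
  simp [info]

/-- the starting scheme -/
noncomputable def base : Scheme (Model.bit 1 (by simp)) where
  C := Bool
  π := fun b => b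
  y := sg
  D := 1
  deg := fun φ => Model.bit_mem _ _ φ
  cond := fun φ => E_congr fun b => by rw [Model.bit_S, one_mul]

lemma base_info : base.info = 1 := by
  change E (fun b : Bool => sg b ^ 2) = 1
  simp only [sg_sq, E_const]

lemma E_bool (φ : Bool → ℝ) : E φ = (φ true + φ false) / 2 := by
  simp [E]

/-- symmetrisation by a coin -/
noncomputable def coin {M : Model} (s : Scheme M) : Scheme ((Model.bit 0 (by simp)).prod M) where
  C := Bool × s.C
  π := fun ω : Bool × M.Ω => (ω.1, s.π (if ω.1 then ω.2 else M.neg ω.2))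
  y := fun c => sg c.1 * s.y c.2
  D := 1 + s.D
  deg := fun φ => prod_deg (M₁ := Model.bit 0 (by simp)) (M₂ := M) (A := Bool) (B := M.Ω)
    (fun b => b) (fun ω => ω) (Model.bit_mem _ _)
    (fun b ω => φ (b, s.π (if b then ω else M.neg ω))) (fun b => by
      cases b
      · exact M.neg_mem (s.deg fun c => φ (false, c))
      · exact s.deg fun c => φ (true, c))
  cond := fun φ => by
    change E (fun ω : Bool × M.Ω => ((Model.bit 0 (by simp)).prod M).S ω *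
        φ (ω.1, s.π (if ω.1 then ω.2 else M.neg ω.2)))
      = E (fun ω : Bool × M.Ω => (sg ω.1 * s.y (s.π (if ω.1 then ω.2 else M.neg ω.2))) *
        φ (ω.1, s.π (if ω.1 then ω.2 else M.neg ω.2)))
    have hS : ∀ ω : Bool × M.Ω, ((Model.bit 0 (by simp)).prod M).S ω = M.S ω.2 := by
      intro ω
      rw [Model.prod_S (Model.bit 0 (by simp)) M ω, Model.bit_S]; ring
    simp only [hS]
    rw [E_prod, E_prod]
    refine E_congr fun b => ?_
    cases b
    · have h1 := s.cond (fun c => φ (false, c))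
      rw [← E_equiv M.neg, ← E_equiv M.neg (fun ω => s.y (s.π ω) * φ (false, s.π ω))] at h1
      simp only [Model.S_neg, neg_mul, E_neg] at h1
      simp only [Bool.false_eq_true, if_false, sg_false, neg_mul, one_mul, E_neg]
      linarith
    · simpa using s.cond (fun c => φ (true, c))

lemma coin_E {M : Model} (s : Scheme M) (Φ : Bool × s.C → ℝ) :
    E (fun ω => Φ (s.coin.π ω))
      = (E (fun ω => Φ (true, s.π ω)) + E (fun ω => Φ (false, s.π ω))) / 2 := by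
  change E (fun ω : Bool × M.Ω => Φ (ω.1, s.π (if ω.1 then ω.2 else M.neg ω.2))) = _
  rw [E_prod, E_bool]
  simp only [if_true, Bool.false_eq_true, if_false]
  rw [E_equiv M.neg (fun ω => Φ (false, s.π ω))]

/-- the sign bit of the symmetrised scheme -/
noncomputable def coinBit {M : Model} (s : Scheme M) (c : Bool × s.C) : Bool :=
  if 0 ≤ s.y c.2 then c.1 else !c.1

lemma coin_info {M : Model} (s : Scheme M) : s.coin.info = s.info := by
  have := s.coin_E (fun c => (sg c.1 * s.y c.2) ^ 2)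
  simp only [sg_true, sg_false, one_mul, neg_mul, even_two, Even.neg_pow] at this
  unfold info
  change E (fun ω => (sg (s.coin.π ω).1 * s.y (s.coin.π ω).2) ^ 2) = _
  rw [this]; ring

lemma coin_law {M : Model} (s : Scheme M) (φ : Bool → ℝ) :
    E (fun ω => φ (s.coinBit (s.coin.π ω))) = E φ := by
  rw [s.coin_E (fun c => φ (s.coinBit c)), ← E_add, E_bool]
  congr 1
  refine (E_congr fun ω => ?_).trans (E_const _)
  simp only [coinBit]
  split_ifs
  · rfl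
  · simp [add_comm]

lemma coin_mean {M : Model} (s : Scheme M) (φ : Bool → ℝ) :
    E (fun ω => (s.coin.y (s.coin.π ω) - E (fun ω => |s.y (s.π ω)|) *
      sg (s.coinBit (s.coin.π ω))) * φ (s.coinBit (s.coin.π ω))) = 0 := by
  set μ := E (fun ω => |s.y (s.π ω)|) with hμ
  have := s.coin_E (fun c => (sg c.1 * s.y c.2 - μ * sg (s.coinBit c)) * φ (s.coinBit c))
  refine this.trans ?_
  rw [← E_add]
  have h : ∀ ω, (sg true * s.y (s.π ω) - μ * sg (s.coinBit (true, s.π ω))) *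
        φ (s.coinBit (true, s.π ω)) +
      (sg false * s.y (s.π ω) - μ * sg (s.coinBit (false, s.π ω))) *
        φ (s.coinBit (false, s.π ω)) = (|s.y (s.π ω)| - μ) * (φ true - φ false) := by
    intro ω
    simp only [coinBit]
    split_ifs with h
    · rw [abs_of_nonneg h]; simp; ring
    · rw [abs_of_neg (not_le.1 h)]; simp; ring
  rw [E_congr h, E_mul_right, E_sub, E_const, ← hμ]
  simp

lemma coin_var {M : Model} (s : Scheme M) (φ : Bool → ℝ) :
    E (fun ω => (s.coin.y (s.coin.π ω) - E (fun ω => |s.y (s.π ω)|) *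
      sg (s.coinBit (s.coin.π ω))) ^ 2 * φ (s.coinBit (s.coin.π ω)))
      = E (fun ω => (s.info - E (fun ω => |s.y (s.π ω)|) ^ 2) * φ (s.coinBit (s.coin.π ω))) := by
  set μ := E (fun ω => |s.y (s.π ω)|) with hμ
  rw [E_mul_left, coin_law, E_bool]
  have := s.coin_E (fun c => (sg c.1 * s.y c.2 - μ * sg (s.coinBit c)) ^ 2 * φ (s.coinBit c))
  refine this.trans ?_
  rw [← E_add]
  have h : ∀ ω, (sg true * s.y (s.π ω) - μ * sg (s.coinBit (true, s.π ω))) ^ 2 *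
        φ (s.coinBit (true, s.π ω)) +
      (sg false * s.y (s.π ω) - μ * sg (s.coinBit (false, s.π ω))) ^ 2 *
        φ (s.coinBit (false, s.π ω))
      = (s.y (s.π ω) ^ 2 - 2 * μ * |s.y (s.π ω)| + μ ^ 2) * (φ true + φ false) := by
    intro ω
    simp only [coinBit]
    split_ifs with h
    · rw [abs_of_nonneg h]; simp; ring
    · rw [abs_of_neg (not_le.1 h)]; simp; ring
  rw [E_congr h, E_mul_right, E_add, E_sub, E_const, E_mul_left, ← hμ]
  unfold info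
  ring

/-- merge the cells in `F` and read one more block there -/
theorem merge {M₁ M₂ : Model} (s₁ : Scheme M₁) (s₂ : Scheme M₂) (F : s₁.C → ℝ)
    (hF : ∀ c, F c = 0 ∨ F c = 1) (D' : ℕ) (hD : D' + s₂.D ≤ s₁.D)
    (hdeg : (fun ω => F (s₁.π ω)) ∈ M₁.Low D') (a : ℝ) :
    ∃ s : Scheme (M₁.prod M₂), s.D = s₁.D ∧
      s₁.info + E (fun ω => F (s₁.π ω) * (s₂.info - (s₁.y (s₁.π ω) - a) ^ 2)) ≤ s.info := by
  classical
  set P := E (fun ω => F (s₁.π ω)) with hP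
  set Q := E (fun ω => s₁.y (s₁.π ω) * F (s₁.π ω)) with hQ
  set m := Q / P with hm
  have hF0 : ∀ c, 0 ≤ F c := fun c => by rcases hF c with h | h <;> simp [h]
  have hmP : m * P = Q := by
    by_cases h : P = 0
    · have h1 := eq_zero_of_E_eq_zero (fun ω => hF0 (s₁.π ω)) h
      rw [h, mul_zero, hQ]
      simp only [h1, mul_zero, E_zero]
    · rw [hm]; field_simp
  let π : M₁.Ω × M₂.Ω → s₁.C ⊕ s₂.C := fun ω =>
    if F (s₁.π ω.1) = 1 then Sum.inr (s₂.π ω.2) else Sum.inl (s₁.π ω.1)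
  have hπ : ∀ (φ : s₁.C ⊕ s₂.C → ℝ) (ω : M₁.Ω × M₂.Ω), φ (π ω) =
      (1 - F (s₁.π ω.1)) * φ (Sum.inl (s₁.π ω.1)) + F (s₁.π ω.1) * φ (Sum.inr (s₂.π ω.2)) := by
    intro φ ω
    rcases hF (s₁.π ω.1) with h | h <;> simp [π, h]
  let y : s₁.C ⊕ s₂.C → ℝ := Sum.elim s₁.y (fun c => m + s₂.y c)
  refine ⟨⟨s₁.C ⊕ s₂.C, π, y, s₁.D, ?_, ?_⟩, rfl, ?_⟩
  · intro φ
    have h1 := Model.fst_mem M₂ (s₁.deg fun c => (1 - F c) * φ (Sum.inl c))
    have h2 := (M₁.prod M₂).Low_mono hD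
      (Model.prod_mul_mem hdeg (s₂.deg fun c => φ (Sum.inr c)))
    have := (M₁.prod M₂).add_mem h1 h2
    convert this using 2 with ω
    exact hπ φ ω
  · intro φ
    change E (fun ω : M₁.Ω × M₂.Ω => (M₁.prod M₂).S ω * φ (π ω))
      = E (fun ω : M₁.Ω × M₂.Ω => (fun c => y c * φ c) (π ω))
    have e1 : ∀ ω : M₁.Ω × M₂.Ω, (M₁.prod M₂).S ω * φ (π ω) =
        (M₁.S ω.1 * ((1 - F (s₁.π ω.1)) * φ (Sum.inl (s₁.π ω.1)))) * 1
        + (M₁.S ω.1 * F (s₁.π ω.1)) * φ (Sum.inr (s₂.π ω.2))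
        + ((1 - F (s₁.π ω.1)) * φ (Sum.inl (s₁.π ω.1))) * M₂.S ω.2
        + F (s₁.π ω.1) * (M₂.S ω.2 * φ (Sum.inr (s₂.π ω.2))) := by
      intro ω; rw [Model.prod_S, hπ φ]; ring
    have e2 : ∀ ω : M₁.Ω × M₂.Ω, (fun c => y c * φ c) (π ω) =
        (s₁.y (s₁.π ω.1) * ((1 - F (s₁.π ω.1)) * φ (Sum.inl (s₁.π ω.1)))) * 1
        + m * (F (s₁.π ω.1) * φ (Sum.inr (s₂.π ω.2)))
        + F (s₁.π ω.1) * (s₂.y (s₂.π ω.2) * φ (Sum.inr (s₂.π ω.2))) := by
      intro ω; refine (hπ (fun c => y c * φ c) ω).trans ?_; simp only [y, Sum.elim_inl, Sum.elim_inr]; ring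
    rw [E_congr e1, E_congr e2]
    simp only [E_add, E_mul_left]
    rw [E_prod_mul (fun a => M₁.S a * ((1 - F (s₁.π a)) * φ (Sum.inl (s₁.π a)))) (fun _ => 1),
      E_prod_mul (fun a => M₁.S a * F (s₁.π a)) (fun b => φ (Sum.inr (s₂.π b))),
      E_prod_mul (fun a => (1 - F (s₁.π a)) * φ (Sum.inl (s₁.π a))) M₂.S,
      E_prod_mul (fun a => F (s₁.π a)) (fun b => M₂.S b * φ (Sum.inr (s₂.π b))),
      E_prod_mul (fun a => s₁.y (s₁.π a) * ((1 - F (s₁.π a)) * φ (Sum.inl (s₁.π a))))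
        (fun _ => 1),
      E_prod_mul (fun a => F (s₁.π a)) (fun b => φ (Sum.inr (s₂.π b))),
      E_prod_mul (fun a => F (s₁.π a)) (fun b => s₂.y (s₂.π b) * φ (Sum.inr (s₂.π b))),
      s₁.cond (fun c => (1 - F c) * φ (Sum.inl c)), s₁.cond F,
      s₂.cond (fun c => φ (Sum.inr c)), M₂.E_S, ← hP, ← hQ, ← hmP]
    ring
  · change _ ≤ E (fun ω : M₁.Ω × M₂.Ω => (fun c => y c ^ 2) (π ω))
    have e2 : ∀ ω : M₁.Ω × M₂.Ω, (fun c => y c ^ 2) (π ω) =
        (s₁.y (s₁.π ω.1) ^ 2 - F (s₁.π ω.1) * s₁.y (s₁.π ω.1) ^ 2) * 1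
        + F (s₁.π ω.1) * (m ^ 2 + 2 * m * s₂.y (s₂.π ω.2) + s₂.y (s₂.π ω.2) ^ 2) := by
      intro ω; refine (hπ (fun c => y c ^ 2) ω).trans ?_; simp only [y, Sum.elim_inl, Sum.elim_inr]; ring
    have e3 : ∀ ω, F (s₁.π ω) * (s₂.info - (s₁.y (s₁.π ω) - a) ^ 2)
        = (s₂.info - a ^ 2) * F (s₁.π ω) - F (s₁.π ω) * s₁.y (s₁.π ω) ^ 2
          + 2 * a * (s₁.y (s₁.π ω) * F (s₁.π ω)) := fun ω => by ring
    rw [E_congr e2, E_congr e3]
    simp only [E_add, E_sub, E_mul_left]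
    rw [E_prod_mul (fun a => s₁.y (s₁.π a) ^ 2 - F (s₁.π a) * s₁.y (s₁.π a) ^ 2) (fun _ => 1),
      E_prod_mul (fun a => F (s₁.π a))
        (fun b => m ^ 2 + 2 * m * s₂.y (s₂.π b) + s₂.y (s₂.π b) ^ 2)]
    simp only [E_add, E_sub, E_mul_left, E_const, s₂.E_y]
    rw [← hP, ← hQ, ← hmP]
    have hP0 : 0 ≤ P := E_nonneg fun ω => hF0 _
    unfold info
    nlinarith [mul_nonneg hP0 (sq_nonneg (m - a))]

end Scheme

end Crest.Agent.H0085
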