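import Crest.Agent.H0085.Prob

set_option autoImplicit false
open Finset BigOperators Filter Topology

namespace Crest.Agent.H0085

lemma exists_N (A N0 : ℕ) : ∃ N : ℕ, N0 ≤ N ∧ ((20 * N : ℕ) + 1 : ℝ) ^ A * (91 / 100) ^ N ≤ 1 := by
  have h := tendsto_pow_const_mul_const_pow_of_abs_lt_one A (r := (91 / 100 : ℝ))
    (by rw [abs_of_pos] <;> norm_num)
  have h2 := h.const_mul ((21 : ℝ) ^ A)
  rw [mul_zero] at h2
  have h3 := h2.eventually (gt_mem_nhds zero_lt_one)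
  obtain ⟨N, hN, hN1, hN2⟩ := (h3.and ((eventually_ge_atTop N0).and (eventually_ge_atTop 1))).exists
  refine ⟨N, hN1, le_trans ?_ hN.le⟩
  rw [← mul_assoc, ← mul_pow]
  have : (1 : ℝ) ≤ N := by exact_mod_cast hN2
  gcongr
  push_cast; linarith

lemma decay (n : ℕ) (hn : 2241 ≤ n) :
    (1 - 1 / (2 * ((160 * n ^ 2 : ℕ) : ℝ))) ^ (n ^ 4 - 1) ≤ (1 / 128) ^ n := by
  have hn' : (2241 : ℝ) ≤ n := by exact_mod_cast hn
  set p : ℝ := 1 / (2 * ((160 * n ^ 2 : ℕ) : ℝ)) with hp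
  have hp' : p = 1 / (320 * (n : ℝ) ^ 2) := by rw [hp]; push_cast; ring
  have hp1 : p ≤ 1 := by
    rw [hp', div_le_one (by positivity)]; nlinarith
  have h1 : 1 - p ≤ Real.exp (-p) := by linarith [Real.add_one_le_exp (-p)]
  have h2 : (1 - p) ^ (n ^ 4 - 1) ≤ Real.exp (-p) ^ (n ^ 4 - 1) :=
    pow_le_pow_left₀ (by linarith) h1 _
  refine h2.trans ?_
  have h3 : Real.exp (-7) ≤ 1 / 128 := by
    rw [Real.exp_neg, one_div]
    refine inv_anti₀ (by norm_num) ?_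
    have : Real.exp 7 = Real.exp 1 ^ 7 := by rw [← Real.exp_nat_mul]; norm_num
    rw [this]
    have := Real.exp_one_gt_d9
    calc (128 : ℝ) = 2 ^ 7 := by norm_num
      _ ≤ _ := pow_le_pow_left₀ (by norm_num) (by linarith) 7
  refine le_trans ?_ (pow_le_pow_left₀ (Real.exp_pos _).le h3 n)
  rw [← Real.exp_nat_mul, ← Real.exp_nat_mul, Real.exp_le_exp]
  have h4 : 1 ≤ n ^ 4 := Nat.one_le_pow _ _ (by omega)
  rw [Nat.cast_sub h4, hp']
  push_cast
  have h5 : 7 * (n : ℝ) ≤ ((n : ℝ) ^ 4 - 1) / (320 * n ^ 2) := by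
    rw [le_div_iff₀ (by positivity)]
    have : (1 : ℝ) ≤ (n : ℝ) ^ 3 := one_le_pow₀ (by linarith)
    nlinarith
  have : ((n : ℝ) ^ 4 - 1) * -(1 / (320 * n ^ 2)) = - (((n : ℝ) ^ 4 - 1) / (320 * n ^ 2)) := by
    ring
  linarith

lemma numeric (A : ℕ) : ∃ N : ℕ, 1200 ≤ N ∧ ∀ n k h R : ℕ, n = 20 * N → k = 9 * N → h = n ^ 4 →
    R = 2 * 4 ^ n * h →
    ((n + 2 * n ^ 2) + 122 * k + 60 * h * k : ℝ) *
        (3 * h * (91 / 100) ^ N * (1 + 320 * (h : ℝ) ^ 3))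
      + ((n + 2 * n ^ 2) + 122 * k + 60 * h ^ 2 * k : ℝ) *
        (1 - 1 / (2 * ((160 * n ^ 2 : ℕ) : ℝ))) ^ (h - 1) * (1 + 320 * (R : ℝ) ^ 3)
      ≤ 1 / (2 * ((80 * n ^ 2 : ℕ) : ℝ)) * (1 / ((n : ℝ) + 1) ^ A) / 8 := by
  obtain ⟨N, hN, hq⟩ := exists_N (A + 32) 1200
  refine ⟨N, hN, ?_⟩
  intro n k h R hn hk hh hR
  rw [← hn] at hq
  have hn1 : 12800 ≤ n := by omega
  have hn' : (12800 : ℝ) ≤ n := by exact_mod_cast hn1
  have hkn : (k : ℝ) ≤ n := by exact_mod_cast (show k ≤ n by omega)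
  have hh' : (h : ℝ) = (n : ℝ) ^ 4 := by rw [hh]; push_cast; ring
  have hR' : (R : ℝ) = 2 * 4 ^ n * (n : ℝ) ^ 4 := by rw [hR, hh]; push_cast; ring
  have hd := decay n (by omega)
  rw [← hh] at hd
  set x : ℝ := n + 1 with hx
  set q : ℝ := (91 / 100) ^ N with hqdef
  have hq0 : 0 ≤ q := by positivity
  have hnx : (n : ℝ) ≤ x := by linarith
  have hn0 : (1 : ℝ) ≤ n := by linarith
  have pw : ∀ j : ℕ, (n : ℝ) ^ j ≤ x ^ j := fun j => pow_le_pow_left₀ (by linarith) hnx j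
  have mono : ∀ i j : ℕ, i ≤ j → (n : ℝ) ^ i ≤ (n : ℝ) ^ j :=
    fun i j hij => pow_le_pow_right₀ hn0 hij
  have hx0 : 0 < x := by linarith
  have b1 : ((n + 2 * n ^ 2) + 122 * k + 60 * h ^ 2 * k : ℝ) ≤ x ^ 10 := by
    have e1 := mono 1 9 (by norm_num)
    have e2 := mono 2 9 (by norm_num)
    have e3 : (h : ℝ) ^ 2 * k ≤ (n : ℝ) ^ 9 := by
      rw [hh']
      calc _ ≤ ((n : ℝ) ^ 4) ^ 2 * n := by gcongr
        _ = _ := by ring
    have e4 : 185 * (n : ℝ) ^ 9 ≤ x ^ 10 := by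
      calc _ ≤ x * x ^ 9 := mul_le_mul (by linarith) (pw 9) (by positivity) hx0.le
        _ = _ := by ring
    rw [pow_one] at e1
    linarith
  have b0 : ((n + 2 * n ^ 2) + 122 * k + 60 * h * k : ℝ) ≤ x ^ 10 := by
    refine le_trans ?_ b1
    have : (h : ℝ) * k ≤ h ^ 2 * k := by
      have : (1 : ℝ) ≤ h := by rw [hh']; exact one_le_pow₀ hn0
      gcongr; nlinarith
    linarith
  have b2 : (3 * h : ℝ) ≤ x ^ 5 := by
    rw [hh']
    calc _ ≤ x * x ^ 4 := mul_le_mul (by linarith) (pw 4) (by positivity) hx0.le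
      _ = _ := by ring
  have b3 : 1 + 320 * (h : ℝ) ^ 3 ≤ x ^ 13 := by
    rw [hh']
    have e1 : (1 : ℝ) ≤ (n : ℝ) ^ 12 := one_le_pow₀ hn0
    have e2 : 321 * (n : ℝ) ^ 12 ≤ x ^ 13 := by
      calc _ ≤ x * x ^ 12 := mul_le_mul (by linarith) (pw 12) (by positivity) hx0.le
        _ = _ := by ring
    have e3 : ((n : ℝ) ^ 4) ^ 3 = n ^ 12 := by ring
    linarith
  have b4 : 1 + 320 * (R : ℝ) ^ 3 ≤ 64 ^ n * x ^ 13 := by
    rw [hR']
    have e0 : (1 : ℝ) ≤ 64 ^ n := one_le_pow₀ (by norm_num)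
    have e1 : (1 : ℝ) ≤ (n : ℝ) ^ 12 := one_le_pow₀ hn0
    have e2 : 2561 * (n : ℝ) ^ 12 ≤ x ^ 13 := by
      calc _ ≤ x * x ^ 12 := mul_le_mul (by linarith) (pw 12) (by positivity) hx0.le
        _ = _ := by ring
    have e3 : (2 * 4 ^ n * (n : ℝ) ^ 4) ^ 3 = 8 * (64 ^ n * n ^ 12) := by
      have : (64 : ℝ) ^ n = (4 ^ n) ^ 3 := by rw [← pow_mul, mul_comm, pow_mul]; norm_num
      rw [this]; ring
    have e4 : (1 : ℝ) ≤ 64 ^ n * n ^ 12 := one_le_mul_of_one_le_of_one_le e0 e1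
    have e5 := mul_le_mul_of_nonneg_left e2 (show (0 : ℝ) ≤ 64 ^ n by positivity)
    rw [e3]
    linarith
  have b5 : (1 / 128 : ℝ) ^ n * 64 ^ n ≤ q := by
    rw [← mul_pow, hn, pow_mul]
    exact pow_le_pow_left₀ (by positivity) (by norm_num) N
  have c1 : ((n + 2 * n ^ 2) + 122 * k + 60 * h * k : ℝ) *
        (3 * h * q * (1 + 320 * (h : ℝ) ^ 3)) ≤ x ^ 28 * q := by
    calc _ ≤ x ^ 10 * (x ^ 5 * q * x ^ 13) := by gcongr
      _ = _ := by ring
  have hp0 : 0 ≤ (1 - 1 / (2 * ((160 * n ^ 2 : ℕ) : ℝ))) ^ (h - 1) := by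
    refine pow_nonneg ?_ _
    rw [sub_nonneg, div_le_one (by positivity)]
    push_cast; nlinarith
  have c2 : ((n + 2 * n ^ 2) + 122 * k + 60 * h ^ 2 * k : ℝ) *
        (1 - 1 / (2 * ((160 * n ^ 2 : ℕ) : ℝ))) ^ (h - 1) * (1 + 320 * (R : ℝ) ^ 3)
      ≤ x ^ 28 * q := by
    calc _ ≤ x ^ 10 * (1 / 128) ^ n * (64 ^ n * x ^ 13) := by gcongr
      _ = x ^ 23 * ((1 / 128) ^ n * 64 ^ n) := by ring
      _ ≤ x ^ 28 * q := by
        gcongr
        · linarith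
        · norm_num
  refine (add_le_add c1 c2).trans ?_
  have c3 : 1 / (2 * ((80 * n ^ 2 : ℕ) : ℝ)) * (1 / x ^ A) / 8 = 1 / (1280 * n ^ 2 * x ^ A) := by
    push_cast; field_simp; ring
  rw [c3, le_div_iff₀ (by positivity)]
  refine le_trans ?_ hq
  have c4 : 2560 * (n : ℝ) ^ 2 ≤ x ^ 4 := by
    calc _ ≤ x ^ 2 * x ^ 2 := mul_le_mul (by nlinarith) (pw 2) (by positivity) (by positivity)
      _ = _ := by ring
  calc _ = (2560 * (n : ℝ) ^ 2) * (x ^ 28 * x ^ A * q) := by ring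
    _ ≤ x ^ 4 * (x ^ 28 * x ^ A * q) := by gcongr
    _ = _ := by ring

lemma sum_inv_sq_le (R : ℕ) : ∑ l : Fin R, 1 / (((l : ℕ) : ℝ) + 1) ^ 2 ≤ 2 := by
  rw [Fin.sum_univ_eq_sum_range (fun l => 1 / ((l : ℝ) + 1) ^ 2) R]
  have : ∀ R : ℕ, ∑ l ∈ range R, 1 / ((l : ℝ) + 1) ^ 2 ≤ 2 - 2 / ((R : ℝ) + 1) := by
    intro R
    induction R with
    | zero => simp
    | succ R ih =>
      rw [sum_range_succ]
      have : 1 / ((R : ℝ) + 1) ^ 2 ≤ 2 / ((R : ℝ) + 1) - 2 / ((R + 1 : ℕ) + 1 : ℝ) := by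
        push_cast
        rw [div_sub_div _ _ (by positivity) (by positivity),
          div_le_div_iff₀ (by positivity) (by positivity)]
        have : (0 : ℝ) ≤ R := Nat.cast_nonneg R
        nlinarith [mul_nonneg this (sq_nonneg ((R : ℝ) + 1)), mul_nonneg this this]
      linarith
  have h2 : (0 : ℝ) ≤ 2 / ((R : ℝ) + 1) := by positivity
  linarith [this R]

/-- collapse a window of values into one class -/
noncomputable def cls {C : Type} (y : C → ℝ) (a δ : ℝ) (c : C) : Option C :=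
  if |y c - a| ≤ δ then none else some c

lemma exists_class {Z C : Type} [Fintype Z] (π : Z → C) (y : C → ℝ) (a δ : ℝ)
    (hpos : 0 < E (fun u => if |y (π u) - a| ≤ δ then (1 : ℝ) else 0)) :
    ∃ m : Option C → ℝ,
      (∀ φ : Option C → ℝ, E (fun u => (y (π u) - m (cls y a δ (π u))) * φ (cls y a δ (π u))) = 0)
      ∧ ∀ u, (y (π u) - m (cls y a δ (π u))) ^ 2 ≤ 4 * δ ^ 2 := by
  set P := E (fun u => if |y (π u) - a| ≤ δ then (1 : ℝ) else 0) with hP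
  set Q := E (fun u => (y (π u) - a) * if |y (π u) - a| ≤ δ then (1 : ℝ) else 0) with hQ
  refine ⟨fun c => c.elim (a + Q / P) y, ?_, ?_⟩
  · intro φ
    have : ∀ u, (y (π u) - (cls y a δ (π u)).elim (a + Q / P) y) * φ (cls y a δ (π u))
        = φ none * (((y (π u) - a) * if |y (π u) - a| ≤ δ then (1 : ℝ) else 0)
          - Q / P * if |y (π u) - a| ≤ δ then (1 : ℝ) else 0) := by
      intro u
      unfold cls
      split_ifs
      · simp only [Option.elim_none]; ring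
      · simp
    rw [E_congr this, E_mul_left, E_sub, E_mul_left, ← hP, ← hQ, div_mul_cancel₀ _ hpos.ne']
    simp
  · intro u
    unfold cls
    split_ifs with h
    · simp only [Option.elim_none]
      have h1 : Q ≤ δ * P := by
        rw [hQ, hP, ← E_mul_left]
        refine E_mono fun u => ?_
        split_ifs with h
        · simpa using (abs_le.1 h).2
        · simp
      have h2 : -δ * P ≤ Q := by
        rw [hQ, hP, ← E_mul_left]
        refine E_mono fun u => ?_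
        split_ifs with h
        · have := (abs_le.1 h).1
          linarith
        · simp
      have h3 : Q / P ≤ δ := by rwa [div_le_iff₀ hpos]
      have h4 : -δ ≤ Q / P := by rwa [le_div_iff₀ hpos]
      have h5 := abs_le.1 h
      nlinarith [h5.1, h5.2]
    · simp only [Option.elim_some, sub_self]
      nlinarith [sq_nonneg δ]

end Crest.Agent.H0085
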