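import Mathlib

set_option autoImplicit false
open Finset BigOperators

namespace Crest.Agent.H0085

section
variable {B : Type} [Fintype B]

open Classical in
/-- the points with a non-integral value -/
noncomputable def fracSet (f : B → ℝ) : Finset B := univ.filter (fun x => Int.fract (f x) ≠ 0)

lemma mem_fracSet {f : B → ℝ} {x : B} : x ∈ fracSet f ↔ Int.fract (f x) ≠ 0 := by
  simp [fracSet]

omit [Fintype B] in
lemma fract_eq_zero_iff_int (a : ℝ) : Int.fract a = 0 ↔ ∃ m : ℤ, a = m := by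
  constructor
  · intro h
    exact ⟨⌊a⌋, by have := Int.floor_add_fract a; linarith⟩
  · rintro ⟨m, rfl⟩; simp

omit [Fintype B] in
lemma eq_of_floor_ceil {a b : ℝ} (h : Int.fract a = 0) (h1 : (⌊a⌋ : ℝ) ≤ b) (h2 : b ≤ ⌈a⌉) :
    b = a := by
  obtain ⟨m, rfl⟩ := (fract_eq_zero_iff_int a).1 h
  simp only [Int.floor_intCast, Int.ceil_intCast] at h1 h2
  linarith

/-- one pivoting step -/
lemma round_step (f v : B → ℝ) (hv0 : v ≠ 0) (hv : ∀ x ∉ fracSet f, v x = 0) :
    ∃ s : ℝ, 0 ≤ s ∧ (fracSet (f + s • v)).card < (fracSet f).card ∧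
      ∀ x, (⌊f x⌋ : ℝ) ≤ (f + s • v) x ∧ (f + s • v) x ≤ ⌈f x⌉ := by
  classical
  let σ : B → ℝ := fun x =>
    if 0 < v x then ((⌈f x⌉ : ℝ) - f x) / v x else (f x - ⌊f x⌋) / (- v x)
  have hne : (univ.filter (fun x => v x ≠ 0)).Nonempty := by
    by_contra hcon
    apply hv0
    funext x
    by_contra hx
    exact hcon ⟨x, by simpa using hx⟩
  obtain ⟨x0, hx0, hmin⟩ := exists_min_image _ σ hne
  have hx0' : v x0 ≠ 0 := by simpa using hx0
  have hσ : ∀ x, v x ≠ 0 → 0 ≤ σ x := by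
    intro x hx
    simp only [σ]
    split_ifs with h
    · exact div_nonneg (by linarith [Int.le_ceil (f x)]) h.le
    · exact div_nonneg (by linarith [Int.floor_le (f x)]) (by linarith [not_lt.1 h])
  have hb : ∀ x, (⌊f x⌋ : ℝ) ≤ (f + σ x0 • v) x ∧ (f + σ x0 • v) x ≤ ⌈f x⌉ := by
    intro x
    simp only [Pi.add_apply, Pi.smul_apply, smul_eq_mul]
    have h1 := Int.le_ceil (f x)
    have h2 := Int.floor_le (f x)
    have h0 := hσ x0 hx0'
    by_cases hx : v x = 0
    · rw [hx]; constructor <;> linarith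
    have h3 := hmin x (by simpa using hx)
    by_cases h : 0 < v x
    · have h4 : σ x = ((⌈f x⌉ : ℝ) - f x) / v x := by simp only [σ, h, if_true]
      rw [h4, le_div_iff₀ h] at h3
      have := mul_nonneg h0 h.le
      constructor <;> linarith
    · have h' : 0 < - v x := by
        have := lt_of_le_of_ne (not_lt.1 h) hx
        linarith
      have h4 : σ x = (f x - ⌊f x⌋) / (- v x) := by simp only [σ, h, if_false]
      rw [h4, le_div_iff₀ h'] at h3
      have := mul_nonneg h0 h'.le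
      constructor <;> nlinarith
  refine ⟨σ x0, hσ x0 hx0', ?_, hb⟩
  refine card_lt_card ⟨?_, ?_⟩
  · intro x hx
    by_contra hcon
    have h1 : Int.fract (f x) = 0 := by simpa [mem_fracSet] using hcon
    have := eq_of_floor_ceil h1 (hb x).1 (hb x).2
    rw [mem_fracSet, this] at hx
    exact hx h1
  · intro hsub
    have h1 : x0 ∈ fracSet f := by
      by_contra hcon
      exact hx0' (hv x0 hcon)
    have h2 := hsub h1
    rw [mem_fracSet] at h2
    apply h2
    rw [fract_eq_zero_iff_int]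
    simp only [Pi.add_apply, Pi.smul_apply, smul_eq_mul]
    by_cases h : 0 < v x0
    · refine ⟨⌈f x0⌉, ?_⟩
      have h4 : σ x0 = ((⌈f x0⌉ : ℝ) - f x0) / v x0 := by simp only [σ, h, if_true]
      rw [h4, div_mul_cancel₀ _ hx0']; ring
    · refine ⟨⌊f x0⌋, ?_⟩
      have h4 : σ x0 = (f x0 - ⌊f x0⌋) / (- v x0) := by simp only [σ, h, if_false]
      rw [h4]; field_simp; ring

/-- rounding inside a subspace of small codimension -/
theorem round_slice (V : Submodule ℝ (B → ℝ)) (M : ℕ)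
    (hV : ∀ Φ : Finset B, M < Φ.card → ∃ v ∈ V, v ≠ 0 ∧ ∀ x ∉ Φ, v x = 0) (G f : B → ℝ) :
    ∃ f' : B → ℝ, f' - f ∈ V ∧ (fracSet f').card ≤ M ∧
      (∀ x, (⌊f x⌋ : ℝ) ≤ f' x ∧ f' x ≤ ⌈f x⌉) ∧ ∑ x, G x * f x ≤ ∑ x, G x * f' x := by
  induction' hc : (fracSet f).card using Nat.strong_induction_on with c ih generalizing f
  by_cases hM : (fracSet f).card ≤ M
  · exact ⟨f, by simp, hM, fun x => ⟨Int.floor_le _, Int.le_ceil _⟩, le_rfl⟩
  obtain ⟨v, hvV, hv0, hv⟩ := hV (fracSet f) (not_le.1 hM)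
  have key : ∀ v ∈ V, v ≠ 0 → (∀ x ∉ fracSet f, v x = 0) → 0 ≤ ∑ x, G x * v x →
      ∃ f' : B → ℝ, f' - f ∈ V ∧ (fracSet f').card ≤ M ∧
      (∀ x, (⌊f x⌋ : ℝ) ≤ f' x ∧ f' x ≤ ⌈f x⌉) ∧ ∑ x, G x * f x ≤ ∑ x, G x * f' x := by
    intro v hvV hv0 hv hG
    obtain ⟨s, hs, hlt, hb⟩ := round_step f v hv0 hv
    obtain ⟨f', h1, h2, h3, h4⟩ := ih _ (hc ▸ hlt) (f + s • v) rfl
    refine ⟨f', ?_, h2, ?_, ?_⟩
    · have : f' - f = (f' - (f + s • v)) + s • v := by abel
      rw [this]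
      exact V.add_mem h1 (V.smul_mem _ hvV)
    · intro x
      constructor
      · refine le_trans ?_ (h3 x).1
        exact_mod_cast Int.le_floor.2 (hb x).1
      · refine le_trans (h3 x).2 ?_
        exact_mod_cast Int.ceil_le.2 (hb x).2
    · refine le_trans ?_ h4
      have : ∑ x, G x * (f + s • v) x = ∑ x, G x * f x + s * ∑ x, G x * v x := by
        rw [mul_sum, ← sum_add_distrib]
        exact sum_congr rfl fun x _ => by simp; ring
      rw [this]
      have := mul_nonneg hs hG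
      linarith
  by_cases hG : 0 ≤ ∑ x, G x * v x
  · exact key v hvV hv0 hv hG
  · refine key (-v) (V.neg_mem hvV) (neg_ne_zero.2 hv0) (fun x hx => by simp [hv x hx]) ?_
    simp only [Pi.neg_apply, mul_neg, sum_neg_distrib]
    linarith

lemma sum_abs_le_card (g : B → ℝ) (Φ : Finset B) (h1 : ∀ x, |g x| ≤ 1)
    (h0 : ∀ x ∉ Φ, g x = 0) : ∑ x, |g x| ≤ Φ.card := by
  classical
  rw [← sum_subset (subset_univ Φ) (fun x _ hx => by rw [h0 x hx, abs_zero])]
  refine (sum_le_card_nsmul _ _ 1 fun x _ => h1 x).trans (by simp)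

lemma sum_abs_round_le {f f' : B → ℝ} (h : ∀ x, (⌊f x⌋ : ℝ) ≤ f' x ∧ f' x ≤ ⌈f x⌉) :
    ∑ x, |f' x - f x| ≤ (fracSet f).card := by
  refine sum_abs_le_card _ _ (fun x => ?_) (fun x hx => ?_)
  · have h1 := h x
    have h2 := Int.floor_le (f x)
    have h3 := Int.le_ceil (f x)
    have h4 := Int.lt_floor_add_one (f x)
    have h5 := Int.ceil_lt_add_one (f x)
    rw [abs_le]; constructor <;> linarith [h1.1, h1.2]
  · have h1 : Int.fract (f x) = 0 := by simpa [mem_fracSet] using hx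
    rw [eq_of_floor_ceil h1 (h x).1 (h x).2, sub_self]

end

/-- the invariant of the sweeping procedure -/
structure Inv {B Γ : Type} [Fintype B] {h : ℕ} (V : Submodule ℝ (B → ℝ)) (M : ℕ) (y : Γ)
    (𝒱 : Submodule ℝ ((Fin h → Γ) → B → ℝ)) (f0 : (Fin h → Γ) → B → ℝ) (j : ℕ)
    (f : (Fin h → Γ) → B → ℝ) : Prop where
  mem : f ∈ 𝒱
  lat : ∀ w, ∃ z : B → ℤ, f w - (fun x => (z x : ℝ)) ∈ V
  int : ∀ w, (∃ i : Fin h, i.1 < j ∧ w i = y) → ∀ x, Int.fract (f w x) = 0
  few : ∀ w, (fracSet (f w)).card ≤ M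
  lo : ∀ w x, -(j : ℝ) ≤ f w x
  hi : ∀ w x, f w x ≤ 1
  near : ∀ w, ∑ x, |f w x - f0 w x| ≤ 3 * j * M

lemma Inv.step {B Γ : Type} [Fintype B] {h : ℕ} {V : Submodule ℝ (B → ℝ)} {M : ℕ} {y : Γ}
    {𝒱 : Submodule ℝ ((Fin h → Γ) → B → ℝ)} {f0 : (Fin h → Γ) → B → ℝ}
    (hV : ∀ Φ : Finset B, M < Φ.card → ∃ v ∈ V, v ≠ 0 ∧ ∀ x ∉ Φ, v x = 0)
    (hmain : ∀ g : (Fin h → Γ) → B → ℝ, (∀ w, g w ∈ V) → g ∈ 𝒱)
    (hline : ∀ (j : Fin h) (g : (Fin h → Γ) → B → ℝ),
      (∀ w u, g (Function.update w j u) = g w) → g ∈ 𝒱)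
    {j : ℕ} (hj : j < h) {f : (Fin h → Γ) → B → ℝ} (H : Inv V M y 𝒱 f0 j f) :
    ∃ f', Inv V M y 𝒱 f0 (j + 1) f' := by
  classical
  let J : Fin h := ⟨j, hj⟩
  let g : (Fin h → Γ) → B → ℝ := fun w x => Int.fract (f (Function.update w J y) x)
  have hg : g ∈ 𝒱 := hline J g fun w u => by
    funext x; simp [g]
  let f1 := f - g
  have hr := fun w => round_slice V M hV 0 (f1 w)
  choose f2 h1 h2 h3 _ using hr
  have hg0 : ∀ w x, 0 ≤ g w x := fun w x => Int.fract_nonneg _
  have hg1 : ∀ w x, g w x < 1 := fun w x => Int.fract_lt_one _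
  refine ⟨f2, ?_, ?_, ?_, h2, ?_, ?_, ?_⟩
  · have : f2 = (f2 - f1) + (f - g) := by simp [f1]
    rw [this]
    exact 𝒱.add_mem (hmain _ h1) (𝒱.sub_mem H.mem hg)
  · intro w
    obtain ⟨z1, hz1⟩ := H.lat w
    obtain ⟨z2, hz2⟩ := H.lat (Function.update w J y)
    refine ⟨fun x => z1 x - z2 x + ⌊f (Function.update w J y) x⌋, ?_⟩
    have : (f2 w - fun x => ((z1 x - z2 x + ⌊f (Function.update w J y) x⌋ : ℤ) : ℝ))
        = (f2 w - f1 w) + ((f w - fun x => (z1 x : ℝ))
          - (f (Function.update w J y) - fun x => (z2 x : ℝ))) := by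
      funext x
      simp only [f1, g, Pi.sub_apply, Pi.add_apply, Int.fract]
      push_cast; ring
    rw [this]
    exact V.add_mem (h1 w) (V.sub_mem hz1 hz2)
  · rintro w ⟨i, hi, hwi⟩ x
    have : Int.fract (f1 w x) = 0 := by
      by_cases hij : i = J
      · have e : Function.update w J y = w := by
          rw [← hwi, hij]; simp
        simp only [f1, g, Pi.sub_apply, e, Int.self_sub_fract, Int.fract_intCast]
      · have hi' : i.1 < j := by
          have : i.1 ≠ j := fun e => hij (Fin.ext e)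
          omega
        have e1 := H.int w ⟨i, hi', hwi⟩ x
        have e2 := H.int (Function.update w J y) ⟨i, hi', by simp [hij, hwi]⟩ x
        simp only [f1, g, Pi.sub_apply, e2, sub_zero, e1]
    rw [eq_of_floor_ceil this (h3 w x).1 (h3 w x).2, this]
  · intro w x
    refine le_trans ?_ (h3 w x).1
    have : (-((j + 1 : ℕ) : ℤ)) ≤ ⌊f1 w x⌋ := by
      rw [Int.le_floor]
      have := H.lo w x
      have := hg1 w x
      simp only [f1, Pi.sub_apply]
      push_cast; linarith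
    exact_mod_cast this
  · intro w x
    refine le_trans (h3 w x).2 ?_
    have : ⌈f1 w x⌉ ≤ 1 := by
      rw [Int.ceil_le]
      have := H.hi w x
      have := hg0 w x
      simp only [f1, Pi.sub_apply]
      push_cast; linarith
    exact_mod_cast this
  · intro w
    have a1 : ∑ x, |f2 w x - f1 w x| ≤ (fracSet (f1 w)).card := sum_abs_round_le (h3 w)
    have a2 : fracSet (f1 w) ⊆ fracSet (f w) ∪ fracSet (f (Function.update w J y)) := by
      intro x hx
      rw [mem_union]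
      by_contra hcon
      push Not at hcon
      have e1 : Int.fract (f w x) = 0 := by simpa [mem_fracSet] using hcon.1
      have e2 : Int.fract (f (Function.update w J y) x) = 0 := by
        simpa [mem_fracSet] using hcon.2
      rw [mem_fracSet] at hx
      apply hx
      simp only [f1, g, Pi.sub_apply, e2, sub_zero, e1]
    have a3 : ((fracSet (f1 w)).card : ℝ) ≤ 2 * M := by
      have := (card_le_card a2).trans (card_union_le _ _)
      have b1 := H.few w
      have b2 := H.few (Function.update w J y)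
      have : (fracSet (f1 w)).card ≤ 2 * M := by omega
      exact_mod_cast this
    have a4 : ∑ x, |g w x| ≤ (fracSet (f (Function.update w J y))).card := by
      refine sum_abs_le_card _ _ (fun x => ?_) (fun x hx => ?_)
      · rw [abs_of_nonneg (hg0 w x)]; exact (hg1 w x).le
      · simpa [mem_fracSet] using hx
    have a5 : ((fracSet (f (Function.update w J y))).card : ℝ) ≤ M := by
      exact_mod_cast H.few _
    have a6 : ∑ x, |f2 w x - f0 w x|
        ≤ ∑ x, |f2 w x - f1 w x| + ∑ x, |g w x| + ∑ x, |f w x - f0 w x| := by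
      rw [← sum_add_distrib, ← sum_add_distrib]
      refine sum_le_sum fun x _ => ?_
      have : f2 w x - f0 w x = (f2 w x - f1 w x) + (- g w x) + (f w x - f0 w x) := by
        simp only [f1, Pi.sub_apply]; ring
      rw [this, ← abs_neg (g w x)]
      exact abs_add_three _ _ _
    have a7 := H.near w
    push_cast
    linarith

theorem round_all {B Γ : Type} [Fintype B] {h : ℕ} (hh : 1 ≤ h) (V : Submodule ℝ (B → ℝ)) (M : ℕ)
    (hV : ∀ Φ : Finset B, M < Φ.card → ∃ v ∈ V, v ≠ 0 ∧ ∀ x ∉ Φ, v x = 0)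
    (high : (B → ℝ) → B → ℝ) (K : ℕ) (hi1 : ∀ f, f - high f ∈ V)
    (hi2 : ∀ (f : B → ℝ) (z : B → ℤ), f - (fun x => (z x : ℝ)) ∈ V → ∀ x, ∃ m : ℤ, high f x = m)
    (hi3 : ∀ (f : B → ℝ) (b : ℝ), (∀ x, |f x| ≤ b) → ∀ x, |high f x| ≤ K * b)
    (hconst : ∀ c : ℝ, (fun _ => c) ∈ V)
    (y : Γ) (𝒱 : Submodule ℝ ((Fin h → Γ) → B → ℝ))
    (hmain : ∀ g : (Fin h → Γ) → B → ℝ, (∀ w, g w ∈ V) → g ∈ 𝒱)
    (hline : ∀ (j : Fin h) (g : (Fin h → Γ) → B → ℝ),
      (∀ w u, g (Function.update w j u) = g w) → g ∈ 𝒱)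
    (t G : (Fin h → Γ) → B → ℝ) (ht : ∀ w, t w ∈ V) (ht0 : ∀ w x, 0 ≤ t w x)
    (ht1 : ∀ w x, t w x ≤ 1) (hK : 1 ≤ K) :
    ∃ (τ : (Fin h → Γ) → B → ℤ) (f0 : (Fin h → Γ) → B → ℝ),
      (fun w x => (τ w x : ℝ)) ∈ 𝒱 ∧ (∀ w x, τ w x ≤ 1) ∧ (∀ w x, -((2 * K * h : ℕ) : ℤ) ≤ τ w x) ∧
      (∀ w x, 0 ≤ f0 w x ∧ f0 w x ≤ 1) ∧ (∀ w, ∑ x, G w x * t w x ≤ ∑ x, G w x * f0 w x) ∧
      ∀ w, (∃ i, w i = y) → (∀ x, -(h : ℤ) ≤ τ w x) ∧ ∑ x, |(τ w x : ℝ) - f0 w x| ≤ 3 * h * M := by
  classical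
  have hr := fun w => round_slice V M hV (G w) (t w)
  choose f0 h1 h2 h3 h4 using hr
  have hf0V : ∀ w, f0 w ∈ V := fun w => by
    have := V.add_mem (h1 w) (ht w)
    simpa using this
  have hf0 : ∀ w x, 0 ≤ f0 w x ∧ f0 w x ≤ 1 := by
    intro w x
    constructor
    · refine le_trans ?_ (h3 w x).1
      exact_mod_cast Int.floor_nonneg.2 (ht0 w x)
    · refine le_trans (h3 w x).2 ?_
      have : ⌈t w x⌉ ≤ 1 := Int.ceil_le.2 (by simpa using ht1 w x)
      exact_mod_cast this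
  have H0 : Inv V M y 𝒱 f0 0 f0 :=
    { mem := hmain _ hf0V
      lat := fun w => ⟨0, by
        have : (f0 w - fun x => (((0 : B → ℤ) x : ℤ) : ℝ)) = f0 w := by funext x; simp
        rw [this]; exact hf0V w⟩
      int := fun w ⟨i, hi, _⟩ => absurd hi (Nat.not_lt_zero _)
      few := h2
      lo := fun w x => by simpa using (hf0 w x).1
      hi := fun w x => (hf0 w x).2
      near := fun w => by simp }
  have Hj : ∀ j, j ≤ h → ∃ f, Inv V M y 𝒱 f0 j f := by
    intro j
    induction j with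
    | zero => exact fun _ => ⟨f0, H0⟩
    | succ j ih =>
      intro hj
      obtain ⟨f, Hf⟩ := ih (by omega)
      exact Hf.step hV hmain hline (by omega)
  obtain ⟨f, Hf⟩ := Hj h le_rfl
  have hh' : (1 : ℝ) ≤ h := by exact_mod_cast hh
  have habs : ∀ w x, |f w x| ≤ h := fun w x => by
    rw [abs_le]; exact ⟨Hf.lo w x, (Hf.hi w x).trans hh'⟩
  let f' : (Fin h → Γ) → B → ℝ := fun w x =>
    if ∃ i, w i = y then f w x else high (f w) x - K * h
  have hint : ∀ w x, ∃ m : ℤ, f' w x = m := by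
    intro w x
    by_cases hw : ∃ i, w i = y
    · obtain ⟨i, hi⟩ := hw
      have := Hf.int w ⟨i, i.2, hi⟩ x
      have hw : ∃ i, w i = y := ⟨i, hi⟩
      simp only [f', hw, if_true]
      exact (fract_eq_zero_iff_int _).1 this
    · obtain ⟨z, hz⟩ := Hf.lat w
      obtain ⟨m, hm⟩ := hi2 _ z hz x
      refine ⟨m - K * h, ?_⟩
      simp only [f', hw, if_false, hm]
      push_cast; ring
  choose τ hτ using hint
  have hKh : (h : ℝ) ≤ K * h := by
    have : (1 : ℝ) ≤ K := by exact_mod_cast hK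
    nlinarith
  refine ⟨τ, f0, ?_, ?_, ?_, hf0, h4, ?_⟩
  · have e : (fun w x => (τ w x : ℝ)) = (f' - f) + f := by
      funext w x; simp [hτ]
    rw [e]
    refine 𝒱.add_mem (hmain _ fun w => ?_) Hf.mem
    by_cases hw : ∃ i, w i = y
    · have : (f' - f) w = 0 := by funext x; simp [f', hw]
      rw [this]; exact V.zero_mem
    · have : (f' - f) w = -(f w - high (f w)) - fun _ => (K * h : ℝ) := by
        funext x; simp only [f', hw, if_false, Pi.sub_apply, Pi.neg_apply]; ring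
      rw [this]
      exact V.sub_mem (V.neg_mem (hi1 _)) (hconst _)
  · intro w x
    have : (τ w x : ℝ) ≤ 1 := by
      rw [← hτ]
      by_cases hw : ∃ i, w i = y
      · simp only [f', hw, if_true]; exact Hf.hi w x
      · simp only [f', hw, if_false]
        have := (abs_le.1 (hi3 _ _ (habs w) x)).2
        linarith
    exact_mod_cast this
  · intro w x
    have : -((2 * K * h : ℕ) : ℝ) ≤ (τ w x : ℝ) := by
      rw [← hτ]
      push_cast
      by_cases hw : ∃ i, w i = y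
      · simp only [f', hw, if_true]
        have := Hf.lo w x
        linarith
      · simp only [f', hw, if_false]
        have := (abs_le.1 (hi3 _ _ (habs w) x)).1
        linarith
    exact_mod_cast this
  · intro w hw
    have e : ∀ x, (τ w x : ℝ) = f w x := fun x => by rw [← hτ]; simp only [f', hw, if_true]
    refine ⟨fun x => ?_, ?_⟩
    · have : -(h : ℝ) ≤ (τ w x : ℝ) := by rw [e]; exact Hf.lo w x
      exact_mod_cast this
    · simp only [e]; exact Hf.near w

end Crest.Agent.H0085
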