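import Crest.Agent.H0085.Core
import Crest.Agent.H0085.Num
import Crest.Agent.H0085.Model
import Crest.Agent.H0085.Round
import Crest.Agent.H0085.Bump

set_option autoImplicit false
open Finset BigOperators

namespace Crest.Agent.H0085

lemma dep_univ {ι α : Type} [Fintype ι] (Φ : (ι → α) → ℝ) : DepOn univ Φ :=
  fun x y h => by rw [show x = y from funext fun i => h i (mem_univ _)]

lemma prod_deg' {M₁ M₂ : Model} {A B : Type} [Fintype B] (π₁ : M₁.Ω → A) (π₂ : M₂.Ω → B)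
    {a b : ℕ} (h₂ : ∀ φ : B → ℝ, (fun ω => φ (π₂ ω)) ∈ M₂.Low b)
    (Φ : A → B → ℝ) (h₁ : ∀ c, (fun ω => Φ (π₁ ω) c) ∈ M₁.Low a) :
    (fun ω : M₁.Ω × M₂.Ω => Φ (π₁ ω.1) (π₂ ω.2)) ∈ (M₁.prod M₂).Low (a + b) := by
  classical
  have := (M₁.prod M₂).sum_mem univ
    (fun (c : B) (ω : M₁.Ω × M₂.Ω) => Φ (π₁ ω.1) c * (if π₂ ω.2 = c then (1 : ℝ) else 0))
    (fun c _ => Model.prod_mul_mem (h₁ c) (h₂ fun c' => if c' = c then (1 : ℝ) else 0))
  refine (congrArg (· ∈ (M₁.prod M₂).Low (a + b)) (funext fun ω => ?_)).mp this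
  simp

lemma low_comp {M : Model} (b : M.Ω → Bool) {D : ℕ}
    (hb : ∀ φ : Bool → ℝ, (fun ω => φ (b ω)) ∈ M.Low D) {n d : ℕ} {g : (Fin n → Bool) → ℝ}
    (hg : g ∈ Low (Fin n) d) :
    (fun x : Fin n → M.Ω => g (fun i => b (x i))) ∈ (M.pow n).Low (d * D) := by
  refine Low_induction (LinearMap.funLeft ℝ ℝ (fun (x : Fin n → M.Ω) i => b (x i)))
    ((M.pow n).Low (d * D)) ?_ hg
  intro T φ hT hφ
  exact (M.pow n).Low_mono (Nat.mul_le_mul_right D hT) (Scheme.pow_deg b hb T φ hφ)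

/-- pull back of functions of classes -/
def pull {Ω Z Γ : Type} (b : Ω → Bool) (γ : Z → Γ) (n h : ℕ) :
    ((Fin h → Γ) → (Fin n → Bool) → ℝ) →ₗ[ℝ] ((Fin n → Ω) × (Fin h → Z) → ℝ) where
  toFun g ω := g (fun j => γ (ω.2 j)) (fun i => b (ω.1 i))
  map_add' _ _ := rfl
  map_smul' _ _ := rfl

lemma pull_main {M Mb : Model} {Γ : Type} [Fintype Γ] (b : M.Ω → Bool) (γ : Mb.Ω → Γ) {D Db : ℕ}
    (hb : ∀ φ : Bool → ℝ, (fun ω => φ (b ω)) ∈ M.Low D)
    (hγ : ∀ φ : Γ → ℝ, (fun ω => φ (γ ω)) ∈ Mb.Low Db) {n h d : ℕ}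
    (g : (Fin h → Γ) → (Fin n → Bool) → ℝ) (hg : ∀ w, g w ∈ Low (Fin n) d) :
    pull b γ n h g ∈ ((M.pow n).prod (Mb.pow h)).Low (d * D + h * Db) := by
  classical
  refine prod_deg' (M₁ := M.pow n) (M₂ := Mb.pow h) (A := Fin n → Bool) (B := Fin h → Γ)
    (fun (x : Fin n → M.Ω) i => b (x i)) (fun (z : Fin h → Mb.Ω) j => γ (z j)) (fun φ => ?_)
    (fun β w => g w β) (fun w => low_comp b hb (hg w))
  have := Scheme.pow_deg γ hγ (univ : Finset (Fin h)) φ (dep_univ φ)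
  rw [card_univ, Fintype.card_fin] at this
  exact this

lemma pull_line {M Mb : Model} {Γ : Type} [Fintype Γ] (b : M.Ω → Bool) (γ : Mb.Ω → Γ) {D Db : ℕ}
    (hb : ∀ φ : Bool → ℝ, (fun ω => φ (b ω)) ∈ M.Low D)
    (hγ : ∀ φ : Γ → ℝ, (fun ω => φ (γ ω)) ∈ Mb.Low Db) {n h : ℕ} (j : Fin h)
    (g : (Fin h → Γ) → (Fin n → Bool) → ℝ) (hg : ∀ w u, g (Function.update w j u) = g w) :
    pull b γ n h g ∈ ((M.pow n).prod (Mb.pow h)).Low (n * D + (h - 1) * Db) := by
  classical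
  refine Scheme.prod_deg (M₁ := M.pow n) (M₂ := Mb.pow h) (A := Fin n → Bool) (B := Fin h → Γ)
    (fun (x : Fin n → M.Ω) i => b (x i)) (fun (z : Fin h → Mb.Ω) j => γ (z j)) (fun φ => ?_)
    (fun β w => g w β) (fun β => ?_)
  · have := Scheme.pow_deg b hb (univ : Finset (Fin n)) φ (dep_univ φ)
    rw [card_univ, Fintype.card_fin] at this
    exact this
  · have := Scheme.pow_deg γ hγ (univ.erase j) (fun w => g w β) (fun w w' hw => by
      have e : w' = Function.update w j (w' j) := by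
        funext i
        by_cases hi : i = j
        · subst hi; simp
        · rw [Function.update_of_ne hi]; exact (hw i (mem_erase.2 ⟨hi, mem_univ _⟩)).symm
      show g w β = g w' β
      rw [e, hg])
    rw [card_erase_of_mem (mem_univ j), card_univ, Fintype.card_fin] at this
    exact this

lemma cell_deg {M₁ Mb : Model} (s₁ : Scheme M₁) (sb : Scheme Mb) {R D' : ℕ} (hR : 1 ≤ R)
    (τ : s₁.C → ℤ) (h1 : ∀ c, τ c ≤ 1) (h2 : ∀ c, -(R : ℤ) ≤ τ c)
    (hτ : (fun ω => (τ (s₁.π ω) : ℝ)) ∈ M₁.Low D') (hD : s₁.D ≤ D' + sb.D)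
    (α : Fin R → sb.C → ℝ) :
    (fun ω : M₁.Ω × (Fin R → Mb.Ω) => cell (τ (s₁.π ω.1)) (fun l => α l (sb.π (ω.2 l))))
      ∈ (M₁.prod (Mb.pow R)).Low (D' + R * sb.D) := by
  have e1 : (fun z : Fin R → Mb.Ω => ∏ l, α l (sb.π (z l))) ∈ (Mb.pow R).Low (R * sb.D) :=
    (sb.pow R).deg (fun c : Fin R → sb.C => ∏ l, α l (c l))
  have e2 : ∀ l : Fin R, (fun z : Fin R → Mb.Ω => ∏ j ∈ univ.erase l, α j (sb.π (z j)))
      ∈ (Mb.pow R).Low ((R - 1) * sb.D) := by
    intro l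
    have := Scheme.pow_deg sb.π sb.deg (univ.erase l)
      (fun c : Fin R → sb.C => ∏ j ∈ univ.erase l, α j (c j))
      (fun c c' hc => prod_congr rfl fun j hj => by rw [hc j hj])
    rw [card_erase_of_mem (mem_univ l), card_univ, Fintype.card_fin] at this
    exact this
  have e3 : s₁.D + (R - 1) * sb.D ≤ D' + R * sb.D := by
    obtain ⟨R, rfl⟩ : ∃ R', R = R' + 1 := ⟨R - 1, by omega⟩
    rw [Nat.add_sub_cancel, add_mul, one_mul]; omega
  have := (M₁.prod (Mb.pow R)).add_mem (Model.prod_mul_mem hτ e1)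
    ((M₁.prod (Mb.pow R)).sum_mem univ _ fun (l : Fin R) _ =>
      (M₁.prod (Mb.pow R)).Low_mono e3 (Model.prod_mul_mem
        (s₁.deg fun c => if ((l : ℕ) : ℤ) < -τ c then (1 : ℝ) else 0) (e2 l)))
  refine (congrArg (· ∈ (M₁.prod (Mb.pow R)).Low (D' + R * sb.D)) (funext fun ω => ?_)).mp this
  exact (cell_eq _ _ (h1 _) (h2 _)).symm

theorem gadget : ∃ (N0 : ℕ) (η : ℝ), 0 < N0 ∧ 0 < η ∧ ∀ (M : Model) (s : Scheme M)
    (bit : s.C → Bool) (μ : ℝ),
    (∀ φ : Bool → ℝ, E (fun ω => φ (bit (s.π ω))) = E φ) →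
    (∀ φ : Bool → ℝ, E (fun ω => (s.y (s.π ω) - μ * sg (bit (s.π ω))) * φ (bit (s.π ω))) = 0) →
    (∀ φ : Bool → ℝ, E (fun ω => (s.y (s.π ω) - μ * sg (bit (s.π ω))) ^ 2 * φ (bit (s.π ω)))
      = E (fun ω => (s.info - μ ^ 2) * φ (bit (s.π ω)))) →
    0 < s.info → 58 / 100 * s.info ≤ μ ^ 2 →
    ∃ (M' : Model) (s' : Scheme M'), s'.D = N0 * s.D ∧ (N0 + η) * s.info ≤ s'.info := by
  classical
  obtain ⟨N, hN, hnum⟩ := numeric (4 * 1600)
  obtain ⟨n, hn⟩ : ∃ n, n = 20 * N := ⟨_, rfl⟩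
  obtain ⟨k, hk⟩ : ∃ k, k = 9 * N := ⟨_, rfl⟩
  obtain ⟨h, hh⟩ : ∃ h, h = n ^ 4 := ⟨_, rfl⟩
  obtain ⟨R, hR⟩ : ∃ R, R = 2 * 4 ^ n * h := ⟨_, rfl⟩
  replace hnum := hnum n k h R hn hk hh hR
  have hn1 : 1 ≤ n := by omega
  have hn0 : (0 : ℝ) < n := by exact_mod_cast hn1
  have hh1 : 1 ≤ h := hh ▸ Nat.one_le_pow _ _ hn1
  have hR1 : 1 ≤ R := by
    have : 1 ≤ 4 ^ n := Nat.one_le_pow _ _ (by norm_num)
    rw [hR]; nlinarith
  have hh' : (h : ℝ) = (n : ℝ) ^ 4 := by rw [hh]; push_cast; ring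
  obtain ⟨t0, ht0L, ht01, ht0e, ht0v⟩ := exists_bump n 1600 (by norm_num) (by omega)
  generalize 4 * 1600 = A at hnum ht0e
  set pw : ℝ := 1 / (2 * ((80 * n ^ 2 : ℕ) : ℝ)) with hpwdef
  set e0 : ℝ := 1 / ((n : ℝ) + 1) ^ A with he0def
  have hpw0 : 0 < pw := by positivity
  have he00 : 0 < e0 := by positivity
  refine ⟨n + h * k + R * k,
    (∏ l : Fin R, 1 / (320 * (((l : ℕ) : ℝ) + 1) ^ 2)) * (pw * e0 / 8), by omega,
    mul_pos (prod_pos fun l _ => by positivity) (by positivity), ?_⟩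
  intro M s bit μ hlaw hmean hvar hσ hμ
  set σ2 := s.info with hσ2
  have hv : 0 ≤ σ2 - μ ^ 2 := by
    have := hvar (fun _ => 1)
    simp only [mul_one, E_const] at this
    rw [← this]; exact E_nonneg fun _ => sq_nonneg _
  obtain ⟨Mb, sb, hsbD, hsbI⟩ : ∃ (Mb : Model) (sb : Scheme Mb), sb.D = k * s.D ∧
      sb.info = k * σ2 := ⟨M.pow k, s.pow k, rfl, s.pow_info k⟩
  set K := sb.info with hKdef
  have hk0 : (0 : ℝ) < k := by exact_mod_cast (show 0 < k by omega)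
  have hK : 0 < K := by rw [hsbI]; positivity
  have hsq : √K ^ 2 = K := Real.sq_sqrt hK.le
  have hsK : 0 < √K := Real.sqrt_pos.2 hK
  let W : Mb.Ω → ℝ := fun u => sb.y (sb.π u)
  have hW0 : E W = 0 := sb.E_y
  have hW : E (fun u => W u ^ 2) = K := rfl
  -- the mover class
  have hn2 : 1 ≤ n ^ 2 := Nat.one_le_pow _ _ hn1
  obtain ⟨ay, -, hpy⟩ := exists_window W √K hsK (by rw [hW, hsq]) (160 * n ^ 2) (by omega)
  set δy : ℝ := 2 * √K / ((160 * n ^ 2 : ℕ) : ℝ) with hδy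
  obtain ⟨m, hr, hρ⟩ := exists_class sb.π sb.y ay δy (lt_of_lt_of_le (by positivity) hpy)
  let γ : Mb.Ω → Option sb.C := fun u => cls sb.y ay δy (sb.π u)
  have hp : 1 / (2 * ((160 * n ^ 2 : ℕ) : ℝ))
      ≤ E (fun u => if γ u = none then (1 : ℝ) else 0) := by
    refine hpy.trans (le_of_eq (E_congr fun u => ?_))
    simp only [γ, cls, W]
    split_ifs <;> simp_all
  have hρK : h * (4 * δy ^ 2) ≤ K / 1600 := by
    rw [hδy, hh', div_pow, mul_pow, hsq]
    push_cast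
    refine le_of_eq ?_
    field_simp; norm_num
  -- the window for the movers
  have hU : E (fun z : Fin h → Mb.Ω => (∑ j, m (γ (z j))) ^ 2) ≤ ((n : ℝ) ^ 2 * √K) ^ 2 := by
    have h1 := mean_sq_le W γ m hr (h := h) (fun _ => 1) (fun _ => zero_le_one)
    simp only [one_mul] at h1
    rw [E_sq_sum W hW0, hW, Fintype.card_fin] at h1
    rw [mul_pow, hsq, ← pow_mul, ← hh']
    exact h1
  obtain ⟨s0, hs0, hpw⟩ := exists_window (fun z : Fin h → Mb.Ω => ∑ j, m (γ (z j)))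
    ((n : ℝ) ^ 2 * √K) (by positivity) hU (80 * n ^ 2) (by omega)
  set δw : ℝ := 2 * ((n : ℝ) ^ 2 * √K) / ((80 * n ^ 2 : ℕ) : ℝ) with hδwdef
  have hδw : δw ^ 2 ≤ K / 1600 := by
    have : δw = √K / 40 := by rw [hδwdef]; push_cast; field_simp; norm_num
    rw [this, div_pow, hsq]; norm_num
  have hs : s0 ^ 2 ≤ 4 * h * K := by
    have := pow_le_pow_left₀ (abs_nonneg _) hs0 2
    rw [sq_abs, mul_pow, mul_pow, hsq, ← pow_mul, ← hh'] at this
    linarith
  -- the fibre windows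
  have hfw := fun l : Fin R => exists_window W √K hsK (by rw [hW, hsq]) (160 * ((l : ℕ) + 1) ^ 2)
    (by have : 1 ≤ ((l : ℕ) + 1) ^ 2 := Nat.one_le_pow _ _ (by omega); omega)
  choose a ha hpa using hfw
  let δ : Fin R → ℝ := fun l => 2 * √K / ((160 * ((l : ℕ) + 1) ^ 2 : ℕ) : ℝ)
  let αC : Fin R → sb.C → ℝ := fun l c => if |sb.y c - a l| ≤ δ l then 1 else 0
  have hαC : ∀ l c, αC l c = 0 ∨ αC l c = 1 := fun l c => by
    simp only [αC]; split_ifs <;> simp
  have hδ : ∀ l u, αC l (sb.π u) = 1 → |W u - a l| ≤ δ l := by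
    intro l u hu
    by_contra hcon
    simp only [αC, W] at hu hcon
    rw [if_neg hcon] at hu
    norm_num at hu
  have hδf : ∑ l, δ l ≤ √K / 40 := by
    have e : ∀ l : Fin R, δ l = √K / 80 * (1 / (((l : ℕ) : ℝ) + 1) ^ 2) := by
      intro l; simp only [δ]; push_cast; field_simp; norm_num
    simp only [e, ← mul_sum]
    have := mul_le_mul_of_nonneg_left (sum_inv_sq_le R) (show 0 ≤ √K / 80 by positivity)
    linarith
  have hpl : ∀ l : Fin R, 1 / (320 * (((l : ℕ) : ℝ) + 1) ^ 2) ≤ E (fun u => αC l (sb.π u)) := by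
    intro l
    refine le_trans (le_of_eq ?_) (hpa l)
    push_cast; ring
  have ha' : ∀ l, a l ^ 2 ≤ 4 * K := by
    intro l
    have := pow_le_pow_left₀ (abs_nonneg _) (ha l) 2
    rw [sq_abs, mul_pow, hsq] at this
    linarith
  -- the rounding
  have hb : ∀ φ : Bool → ℝ, (fun ω => φ (bit (s.π ω))) ∈ M.Low s.D :=
    fun φ => s.deg fun c => φ (bit c)
  have hγ : ∀ φ : Option sb.C → ℝ, (fun ω => φ (γ ω)) ∈ Mb.Low sb.D :=
    fun φ => sb.deg fun c => φ (cls sb.y ay δy c)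
  have hdeg : n * s.D + (h - 1) * sb.D = 11 * N * s.D + h * sb.D := by
    obtain ⟨h', rfl⟩ : ∃ h', h = h' + 1 := ⟨h - 1, by omega⟩
    rw [Nat.add_sub_cancel, hsbD, hn, hk]; ring
  obtain ⟨τ, f0, hτV, hτ1, hτR, hf0, hobj, hag⟩ := round_all hh1 (Low (Fin n) (11 * N))
    (codim (Fin n) (11 * N)) (exists_kernel (11 * N)) (high (11 * N)) (4 ^ Fintype.card (Fin n))
    (sub_high_mem _) (high_int _) (abs_high_le _) (const_mem_Low _) (none : Option sb.C)
    ((((M.pow n).prod (Mb.pow h)).Low (11 * N * s.D + h * sb.D)).comap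
      (pull (fun ω => bit (s.π ω)) γ n h))
    (fun g hg => pull_main _ γ hb hγ g hg)
    (fun j g hg => by
      have := pull_line _ γ hb hγ j g hg
      rw [hdeg] at this
      exact this)
    (start m s0 δw t0) (obj m K (σ2 - μ ^ 2) μ s0)
    (fun w => by
      by_cases hw : |∑ j, m (w j) - s0| ≤ δw
      · have : start m s0 δw t0 w = t0 := by funext β; simp only [start, hw, if_true]
        rw [this]; exact Low_mono (by omega) ht0L
      · have : start m s0 δw t0 w = 0 := by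
          funext β; simp only [start, hw, if_false, Pi.zero_apply]
        rw [this]; exact Submodule.zero_mem _)
    (fun w β => by unfold start; split_ifs; exacts [(ht01 β).1, le_rfl])
    (fun w β => by unfold start; split_ifs; exacts [(ht01 β).2, zero_le_one])
    (Nat.one_le_pow _ _ (by norm_num))
  rw [Fintype.card_fin, ← hR] at hτR
  have hcard : (Fintype.card (Fin n → Bool) : ℝ) = 2 ^ n := by simp
  have hN1 : (1 : ℝ) ≤ N := by exact_mod_cast (show 1 ≤ N by omega)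
  have hsl := core_slices hv W K hW0 hW γ m hr none
    (1 / (2 * ((160 * n ^ 2 : ℕ) : ℝ))) (by convert hp) (n := n) (R := R) hh1 s0 δw pw hs hδw hpw
    t0 (fun β => (ht01 β).1) e0 he00.le
    (by
      rw [E, hcard, le_div_iff₀ (by positivity), he0def]
      refine le_trans (le_of_eq ?_) ht0e
      ring)
    (by
      rw [E, E, hcard, ← mul_div_assoc]
      refine div_le_div_of_nonneg_right (ht0v.trans (le_of_eq ?_)) (by positivity)
      push_cast; ring)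
    (σ2 / 4) (by positivity)
    (by
      rw [hsbI, hn, hk]
      push_cast
      nlinarith [mul_le_mul_of_nonneg_left hμ (show (0 : ℝ) ≤ N by linarith),
        mul_le_mul_of_nonneg_left hN1 hσ.le])
    τ f0 (3 * h * (91 / 100) ^ N) (by positivity) hτ1 hτR hf0 hobj
    (fun w hw => ⟨(hag w hw).1, by
      rw [E, hcard, div_le_iff₀ (by positivity)]
      refine (hag w hw).2.trans ?_
      have := codim_le N
      rw [← hn] at this
      calc _ ≤ 3 * (h : ℝ) * (2 ^ n * (91 / 100) ^ N) := by gcongr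
        _ = _ := by ring⟩)
  have hfi := core_fiber (fun ω => s.y (s.π ω)) (fun ω => bit (s.π ω)) μ σ2 hlaw hmean hvar hv
    W K hW γ m _ hr hρ (n := n) hρK s0 (fun l u => αC l (sb.π u)) (fun l u => hαC l _) a δ
    (√K / 40) hδ hδf (fun l => by positivity) (by rw [div_pow, hsq]; norm_num) hpl ha' τ
  -- the new scheme
  let s₁ := (s.pow n).prod (sb.pow h)
  let τC : s₁.C → ℤ := fun c : (Fin n → s.C) × (Fin h → sb.C) =>
    τ (fun j => cls sb.y ay δy (c.2 j)) (fun i => bit (c.1 i))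
  have hcd := cell_deg s₁ sb hR1 τC (fun c => hτ1 _ _) (fun c => hτR _ _) hτV
    (by
      change n * s.D + h * sb.D ≤ _
      rw [hsbD, hn, hk]
      exact le_of_eq (by ring)) αC
  obtain ⟨s', hD', hI'⟩ := Scheme.merge (s₁.prod (sb.pow R)) sb
    (fun c : s₁.C × (Fin R → sb.C) => cell (τC c.1) (fun l => αC l (c.2 l)))
    (fun c => cell_bool _ _ fun l => hαC l _) _
    (by
      change _ ≤ n * s.D + h * sb.D + R * sb.D
      rw [hsbD, hn, hk]
      exact le_of_eq (by ring)) hcd (s0 + ∑ l, a l)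
  refine ⟨_, s', ?_, le_trans ?_ hI'⟩
  · rw [hD']
    change n * s.D + h * sb.D + R * sb.D = _
    rw [hsbD]; ring
  · have e1 : (s₁.prod (sb.pow R)).info = ((n + h * k + R * k : ℕ) : ℝ) * σ2 := by
      rw [Scheme.prod_info, Scheme.prod_info, Scheme.pow_info, Scheme.pow_info, Scheme.pow_info,
        ← hKdef, ← hσ2, hsbI]
      push_cast; ring
    rw [e1, add_mul]
    refine add_le_add le_rfl (le_trans ?_ hfi)
    have e2 : pw * e0 / 8 * σ2 ≤ EE γ (fun w β => ind0 (τ w β) * obj m K (σ2 - μ ^ 2) μ s0 w β)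
        - ∑ l : Fin R, EE γ (fun w β => indl l (τ w β) *
          pen m (σ2 * (n + 2 * n ^ 2) + 122 * K) s0 w) * (320 * ((l : ℕ) + 1) ^ 2) := by
      refine le_trans ?_ hsl
      have := mul_le_mul_of_nonneg_left hnum hσ.le
      rw [hsbI]
      linarith
    rw [mul_assoc]
    refine mul_le_mul (prod_le_prod (fun l _ => by positivity) fun l _ => hpl l) e2
      (by positivity) (prod_nonneg fun l _ => le_trans (by positivity) (hpl l))

end Crest.Agent.H0085
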