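import Mathlib

set_option autoImplicit false
open Finset BigOperators

namespace Crest.Agent.H0085

/-- sign of a Boolean -/
def sg (b : Bool) : ℝ := if b then 1 else -1

@[simp] lemma sg_true : sg true = 1 := rfl
@[simp] lemma sg_false : sg false = -1 := by simp [sg]
lemma sg_not (b : Bool) : sg (!b) = - sg b := by cases b <;> simp
lemma sg_sq (b : Bool) : sg b ^ 2 = 1 := by cases b <;> simp
lemma sg_mul_self (b : Bool) : sg b * sg b = 1 := by cases b <;> simp
lemma abs_sg (b : Bool) : |sg b| = 1 := by cases b <;> simp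

/-- functions depending only on the coordinates in `T` -/
def DepOn {ι α : Type} (T : Finset ι) (φ : (ι → α) → ℝ) : Prop :=
  ∀ x y : ι → α, (∀ i ∈ T, x i = y i) → φ x = φ y

/-- span of the juntas on at most `d` coordinates -/
def Low (ι : Type) (d : ℕ) : Submodule ℝ ((ι → Bool) → ℝ) :=
  Submodule.span ℝ {φ | ∃ T : Finset ι, T.card ≤ d ∧ DepOn T φ}

lemma mem_Low_of_dep {ι : Type} {d : ℕ} {φ : (ι → Bool) → ℝ} (T : Finset ι) (hT : T.card ≤ d)
    (h : DepOn T φ) : φ ∈ Low ι d := Submodule.subset_span ⟨T, hT, h⟩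

lemma Low_mono {ι : Type} {a b : ℕ} (h : a ≤ b) : Low ι a ≤ Low ι b :=
  Submodule.span_mono fun _ ⟨T, hT, hφ⟩ => ⟨T, hT.trans h, hφ⟩

lemma const_mem_Low {ι : Type} (d : ℕ) (c : ℝ) : (fun _ : ι → Bool => c) ∈ Low ι d :=
  mem_Low_of_dep ∅ (by simp) (fun _ _ _ => rfl)

/-- induction principle: a linear map sending juntas into a submodule sends `Low` into it -/
lemma Low_induction {ι : Type} {d : ℕ} {E : Type} [AddCommGroup E] [Module ℝ E]
    (L : ((ι → Bool) → ℝ) →ₗ[ℝ] E) (W : Submodule ℝ E)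
    (h : ∀ (T : Finset ι) (φ : (ι → Bool) → ℝ), T.card ≤ d → DepOn T φ → L φ ∈ W)
    {φ : (ι → Bool) → ℝ} (hφ : φ ∈ Low ι d) : L φ ∈ W := by
  have : Low ι d ≤ W.comap L := Submodule.span_le.2 fun ψ ⟨T, hT, hψ⟩ => h T ψ hT hψ
  exact this hφ

lemma mul_mem_Low {ι : Type} {a b : ℕ} {φ ψ : (ι → Bool) → ℝ} (hφ : φ ∈ Low ι a)
    (hψ : ψ ∈ Low ι b) : φ * ψ ∈ Low ι (a + b) := by
  classical
  refine Low_induction (LinearMap.mulRight ℝ ψ) (Low ι (a + b)) ?_ hφ
  intro T φ' hT hφ'
  refine Low_induction (LinearMap.mulLeft ℝ φ') (Low ι (a + b)) ?_ hψ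
  intro U ψ' hU hψ'
  refine mem_Low_of_dep (T ∪ U) ((card_union_le _ _).trans (add_le_add hT hU)) ?_
  intro x y hxy
  simp only [LinearMap.mulLeft_apply, Pi.mul_apply]
  rw [hφ' x y fun i hi => hxy i (mem_union_left _ hi),
    hψ' x y fun i hi => hxy i (mem_union_right _ hi)]

/-- pull back along a map of coordinates, with coordinatewise changes -/
lemma comp_mem_Low {ι ι' : Type} {d : ℕ} (e : ι → ι') (g : ι → Bool → Bool)
    {φ : (ι → Bool) → ℝ} (hφ : φ ∈ Low ι d) :
    (fun x : ι' → Bool => φ (fun i => g i (x (e i)))) ∈ Low ι' d := by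
  classical
  refine Low_induction (LinearMap.funLeft ℝ ℝ (fun (x : ι' → Bool) i => g i (x (e i))))
    (Low ι' d) ?_ hφ
  intro T φ' hT hφ'
  refine mem_Low_of_dep (T.image e) (card_image_le.trans hT) ?_
  intro x y hxy
  simp only [LinearMap.funLeft_apply]
  exact hφ' _ _ fun i hi => by rw [hxy _ (mem_image_of_mem e hi)]

/-- flipping one coordinate -/
def flip {ι : Type} [DecidableEq ι] (i : ι) (x : ι → Bool) : ι → Bool :=
  Function.update x i (!x i)

lemma flip_flip {ι : Type} [DecidableEq ι] (i : ι) (x : ι → Bool) : flip i (flip i x) = x := by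
  funext j
  by_cases h : j = i
  · subst h; simp [flip]
  · simp [flip, h]

lemma flip_ne {ι : Type} [DecidableEq ι] {i j : ι} (h : j ≠ i) (x : ι → Bool) :
    flip i x j = x j := by simp [flip, h]

lemma flip_self {ι : Type} [DecidableEq ι] (i : ι) (x : ι → Bool) : flip i x i = !x i := by
  simp [flip]

def flipEquiv {ι : Type} [DecidableEq ι] (i : ι) : (ι → Bool) ≃ (ι → Bool) where
  toFun := flip i
  invFun := flip i
  left_inv := flip_flip i
  right_inv := flip_flip i

lemma sum_eq_zero_of_flip {ι : Type} [Fintype ι] [DecidableEq ι] (i : ι) (F : (ι → Bool) → ℝ)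
    (h : ∀ x, F (flip i x) = - F x) : ∑ x, F x = 0 := by
  have h1 : ∑ x, F (flipEquiv i x) = ∑ x, F x := Equiv.sum_comp (flipEquiv i) F
  have h2 : ∑ x, F (flipEquiv i x) = - ∑ x, F x := by
    rw [← sum_neg_distrib]; exact sum_congr rfl fun x _ => h x
  linarith

/-- the Walsh character -/
def chi {ι : Type} (S : Finset ι) (x : ι → Bool) : ℝ := ∏ i ∈ S, sg (x i)

lemma chi_flip_of_mem {ι : Type} [DecidableEq ι] {S : Finset ι} {i : ι} (hi : i ∈ S)
    (x : ι → Bool) : chi S (flip i x) = - chi S x := by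
  unfold chi
  rw [← mul_prod_erase S _ hi, ← mul_prod_erase S _ hi, flip_self, sg_not, neg_mul]
  congr 2
  exact prod_congr rfl fun j hj => by rw [flip_ne (ne_of_mem_erase hj)]

lemma chi_flip_of_not_mem {ι : Type} [DecidableEq ι] {S : Finset ι} {i : ι} (hi : i ∉ S)
    (x : ι → Bool) : chi S (flip i x) = chi S x :=
  prod_congr rfl fun j hj => by rw [flip_ne (fun h : j = i => hi (h ▸ hj))]

lemma chi_dep {ι : Type} (S : Finset ι) : DepOn S (chi S) := fun _ _ h =>
  prod_congr rfl fun i hi => by rw [h i hi]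

lemma fourier_eq_zero {ι : Type} [Fintype ι] [DecidableEq ι] {d : ℕ} {φ : (ι → Bool) → ℝ}
    (hφ : φ ∈ Low ι d) (S : Finset ι) (hS : d < S.card) : ∑ x, φ x * chi S x = 0 := by
  let L : ((ι → Bool) → ℝ) →ₗ[ℝ] ℝ :=
    { toFun := fun φ => ∑ x, φ x * chi S x
      map_add' := fun a b => by simp [add_mul, sum_add_distrib]
      map_smul' := fun c a => by simp [mul_sum, mul_assoc] }
  have := Low_induction L ⊥ ?_ hφ
  · simpa [L] using this
  intro T ψ hT hψ
  obtain ⟨i, hiS, hiT⟩ : ∃ i ∈ S, i ∉ T := by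
    by_contra hcon
    push Not at hcon
    have := card_le_card (show S ⊆ T from hcon)
    omega
  simp only [L, Submodule.mem_bot, LinearMap.coe_mk, AddHom.coe_mk]
  refine sum_eq_zero_of_flip i _ fun x => ?_
  rw [chi_flip_of_mem hiS, hψ (flip i x) x fun j hj => flip_ne (fun h : j = i => hiT (h ▸ hj)) x]
  ring

/-! ### Möbius coefficients -/

section Moebius
variable {ι : Type} [Fintype ι] [DecidableEq ι]

def ind (U : Finset ι) : ι → Bool := fun i => decide (i ∈ U)

def mob (T : Finset ι) (f : (ι → Bool) → ℝ) : ℝ :=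
  ∑ U ∈ T.powerset, (-1 : ℝ) ^ (T \ U).card * f (ind U)

def mon (T : Finset ι) (x : ι → Bool) : ℝ := if ∀ i ∈ T, x i = true then 1 else 0

lemma mon_dep (T : Finset ι) : DepOn T (mon T) := by
  intro x y h
  unfold mon
  have : (∀ i ∈ T, x i = true) ↔ (∀ i ∈ T, y i = true) :=
    ⟨fun H i hi => h i hi ▸ H i hi, fun H i hi => (h i hi).symm ▸ H i hi⟩
  simp only [this]

omit [Fintype ι] in
lemma sum_neg_one_pow_sdiff (U X : Finset ι) (hU : U ⊆ X) :
    ∑ T ∈ X.powerset with U ⊆ T, (-1 : ℝ) ^ (T \ U).card = if U = X then 1 else 0 := by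
  have h1 : ∑ T ∈ X.powerset with U ⊆ T, (-1 : ℝ) ^ (T \ U).card
      = ∑ m ∈ (X \ U).powerset, (-1 : ℝ) ^ m.card := by
    refine sum_nbij' (fun T => T \ U) (fun m => m ∪ U) ?_ ?_ ?_ ?_ ?_
    · intro T hT
      simp only [mem_filter, mem_powerset] at hT ⊢
      exact sdiff_subset_sdiff hT.1 (Subset.refl _)
    · intro m hm
      simp only [mem_filter, mem_powerset] at hm ⊢
      exact ⟨union_subset (hm.trans sdiff_subset) hU, subset_union_right⟩
    · intro T hT
      simp only [mem_filter, mem_powerset] at hT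
      exact sdiff_union_of_subset hT.2
    · intro m hm
      simp only [mem_powerset] at hm
      rw [union_sdiff_right]
      exact sdiff_eq_self_of_disjoint (disjoint_of_subset_left hm sdiff_disjoint)
    · intro T _; rfl
  rw [h1]
  have h2 := Finset.sum_powerset_neg_one_pow_card (x := X \ U)
  have h3 : ((∑ m ∈ (X \ U).powerset, (-1 : ℤ) ^ m.card : ℤ) : ℝ)
      = ∑ m ∈ (X \ U).powerset, (-1 : ℝ) ^ m.card := by push_cast; rfl
  rw [← h3, h2]
  have : X \ U = ∅ ↔ U = X := by
    rw [sdiff_eq_empty_iff_subset]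
    exact ⟨fun h => Subset.antisymm hU h, fun h => h ▸ Subset.refl _⟩
  by_cases h : U = X
  · simp [h]
  · simp [h, this]

lemma mob_expand (f : (ι → Bool) → ℝ) (x : ι → Bool) :
    ∑ T : Finset ι, mob T f * mon T x = f x := by
  set X : Finset ι := univ.filter (fun i => x i = true) with hX
  have hmon : ∀ T : Finset ι, mon T x = if T ⊆ X then 1 else 0 := by
    intro T
    unfold mon
    have : (∀ i ∈ T, x i = true) ↔ T ⊆ X :=
      ⟨fun H i hi => by simp [hX, H i hi], fun H i hi => by simpa [hX] using H hi⟩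
    simp only [this]
  have h1 : ∑ T : Finset ι, mob T f * mon T x = ∑ T ∈ X.powerset, mob T f := by
    simp only [hmon, mul_ite, mul_one, mul_zero]
    rw [← sum_filter]
    refine sum_congr ?_ fun _ _ => rfl
    ext T; simp
  rw [h1]
  have h2 : ∀ T ∈ X.powerset, mob T f
      = ∑ U ∈ X.powerset, if U ⊆ T then (-1 : ℝ) ^ (T \ U).card * f (ind U) else 0 := by
    intro T hT
    rw [← sum_filter]
    refine sum_congr ?_ fun _ _ => rfl
    ext U
    simp only [mem_powerset, mem_filter] at hT ⊢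
    exact ⟨fun h => ⟨h.trans hT, h⟩, fun h => h.2⟩
  rw [sum_congr rfl h2, sum_comm]
  have h3 : ∀ U ∈ X.powerset,
      (∑ T ∈ X.powerset, if U ⊆ T then (-1 : ℝ) ^ (T \ U).card * f (ind U) else 0)
      = if U = X then f (ind U) else 0 := by
    intro U hU
    rw [← sum_filter, ← sum_mul, sum_neg_one_pow_sdiff U X (mem_powerset.1 hU)]
    split_ifs <;> simp
  rw [sum_congr rfl h3, sum_ite_eq']
  simp only [mem_powerset, Subset.refl, if_true]
  congr 1
  funext i
  simp [ind, hX]

/-- `mob T` as a linear map -/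
def mobL (T : Finset ι) : ((ι → Bool) → ℝ) →ₗ[ℝ] ℝ where
  toFun := mob T
  map_add' := fun a b => by simp [mob, mul_add, sum_add_distrib]
  map_smul' := fun c a => by
    simp only [mob, Pi.smul_apply, smul_eq_mul, RingHom.id_apply, mul_sum]
    exact sum_congr rfl fun _ _ => by ring

omit [Fintype ι] in
lemma mob_eq_zero {d : ℕ} {φ : (ι → Bool) → ℝ} (hφ : φ ∈ Low ι d) (S : Finset ι)
    (hS : d < S.card) : mob S φ = 0 := by
  have := Low_induction (mobL S) ⊥ ?_ hφ
  · simpa [mobL] using this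
  intro T ψ hT hψ
  obtain ⟨i, hiS, hiT⟩ : ∃ i ∈ S, i ∉ T := by
    by_contra hcon
    push Not at hcon
    have := card_le_card (show S ⊆ T from hcon)
    omega
  simp only [mobL, Submodule.mem_bot, LinearMap.coe_mk, AddHom.coe_mk, mob]
  rw [← insert_erase hiS, sum_powerset_insert (notMem_erase i S), ← sum_add_distrib]
  refine sum_eq_zero fun U hU => ?_
  have hU' : U ⊆ S.erase i := mem_powerset.1 hU
  have hiU : i ∉ U := fun h => notMem_erase i S (hU' h)
  have e1 : insert i (S.erase i) \ U = insert i (S.erase i \ U) := by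
    rw [insert_sdiff_of_notMem _ hiU]
  have e2 : insert i (S.erase i) \ insert i U = S.erase i \ U := by
    ext j
    simp only [mem_sdiff, mem_insert, mem_erase]
    tauto
  have e3 : i ∉ S.erase i \ U := fun h => notMem_erase i S (mem_sdiff.1 h).1
  have e4 : ψ (ind (insert i U)) = ψ (ind U) := by
    refine hψ _ _ fun j hj => ?_
    have : j ≠ i := fun h => hiT (h ▸ hj)
    simp [ind, this]
  rw [e1, e2, card_insert_of_notMem e3, e4, pow_succ]
  ring

/-- the part of degree `> d` in the monomial basis -/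
def high (d : ℕ) (f : (ι → Bool) → ℝ) (x : ι → Bool) : ℝ :=
  ∑ T : Finset ι with d < T.card, mob T f * mon T x

lemma sub_high_mem (d : ℕ) (f : (ι → Bool) → ℝ) : f - high d f ∈ Low ι d := by
  have : f - high d f = ∑ T : Finset ι with ¬ d < T.card, mob T f • mon T := by
    funext x
    have := mob_expand f x
    rw [← sum_filter_add_sum_filter_not univ (fun T : Finset ι => d < T.card)] at this
    simp only [Pi.sub_apply, high, Finset.sum_apply, Pi.smul_apply, smul_eq_mul]
    linarith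
  rw [this]
  refine Submodule.sum_mem _ fun T hT => Submodule.smul_mem _ _ ?_
  exact mem_Low_of_dep T (by simpa using hT) (mon_dep T)

lemma high_int (d : ℕ) (f : (ι → Bool) → ℝ) (z : (ι → Bool) → ℤ)
    (h : f - (fun x => (z x : ℝ)) ∈ Low ι d) (x : ι → Bool) : ∃ m : ℤ, high d f x = m := by
  have h1 : ∀ T : Finset ι, d < T.card → mob T f = mob T (fun x => (z x : ℝ)) := by
    intro T hT
    have := mob_eq_zero h T hT
    have h2 : mobL T (f - fun x => (z x : ℝ)) = mobL T f - mobL T (fun x => (z x : ℝ)) :=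
      map_sub _ _ _
    simp only [mobL, LinearMap.coe_mk, AddHom.coe_mk] at h2
    linarith
  refine ⟨∑ T : Finset ι with d < T.card,
    (∑ U ∈ T.powerset, (-1 : ℤ) ^ (T \ U).card * z (ind U)) *
      (if ∀ i ∈ T, x i = true then 1 else 0), ?_⟩
  unfold high
  push_cast
  refine sum_congr rfl fun T hT => ?_
  rw [h1 T (by simpa using hT)]
  simp [mob, mon]

lemma abs_high_le (d : ℕ) (f : (ι → Bool) → ℝ) (b : ℝ) (h : ∀ x, |f x| ≤ b) (x : ι → Bool) :
    |high d f x| ≤ (4 ^ Fintype.card ι : ℕ) * b := by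
  have hb : 0 ≤ b := (abs_nonneg _).trans (h x)
  have h1 : ∀ T : Finset ι, |mob T f * mon T x| ≤ 2 ^ Fintype.card ι * b := by
    intro T
    have h2 : |mob T f| ≤ 2 ^ Fintype.card ι * b := by
      refine (abs_sum_le_sum_abs _ _).trans ?_
      have : ∀ U ∈ T.powerset, |(-1 : ℝ) ^ (T \ U).card * f (ind U)| ≤ b := by
        intro U _
        rw [abs_mul, abs_pow, abs_neg, abs_one, one_pow, one_mul]; exact h _
      refine (sum_le_card_nsmul _ _ _ this).trans ?_
      rw [card_powerset, nsmul_eq_mul]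
      push_cast
      gcongr
      · norm_num
      · exact card_le_univ T
    have h3 : |mon T x| ≤ 1 := by unfold mon; split_ifs <;> simp
    rw [abs_mul]
    calc _ ≤ (2 ^ Fintype.card ι * b) * 1 := by gcongr
      _ = _ := mul_one _
  refine (abs_sum_le_sum_abs _ _).trans ?_
  refine (sum_le_card_nsmul _ _ _ fun T _ => h1 T).trans ?_
  rw [nsmul_eq_mul]
  have : ((univ.filter (fun T : Finset ι => d < T.card)).card : ℝ) ≤ 2 ^ Fintype.card ι := by
    have := card_le_univ (univ.filter (fun T : Finset ι => d < T.card))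
    rw [Fintype.card_finset] at this
    exact_mod_cast this
  calc _ ≤ 2 ^ Fintype.card ι * (2 ^ Fintype.card ι * b) := by gcongr
    _ = _ := by push_cast; rw [← mul_assoc, ← mul_pow]; norm_num

/-- number of high-degree monomials -/
def codim (ι : Type) [Fintype ι] (d : ℕ) : ℕ :=
  (univ.filter (fun T : Finset ι => d < T.card)).card

lemma exists_kernel (d : ℕ) (Φ : Finset (ι → Bool)) (h : codim ι d < Φ.card) :
    ∃ v ∈ Low ι d, v ≠ 0 ∧ ∀ x ∉ Φ, v x = 0 := by
  let ext : (Φ → ℝ) →ₗ[ℝ] ((ι → Bool) → ℝ) :=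
    { toFun := fun u x => if hx : x ∈ Φ then u ⟨x, hx⟩ else 0
      map_add' := fun a b => by funext x; by_cases hx : x ∈ Φ <;> simp [hx]
      map_smul' := fun c a => by funext x; by_cases hx : x ∈ Φ <;> simp [hx] }
  let A : ((ι → Bool) → ℝ) →ₗ[ℝ] ((univ.filter (fun T : Finset ι => d < T.card)) → ℝ) :=
    LinearMap.pi fun T => mobL T.1
  have hlt : Module.finrank ℝ ((univ.filter (fun T : Finset ι => d < T.card)) → ℝ)
      < Module.finrank ℝ (Φ → ℝ) := by
    simpa [codim, Fintype.card_subtype] using h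
  have hker := LinearMap.ker_ne_bot_of_finrank_lt (f := A ∘ₗ ext) hlt
  obtain ⟨u, hu, hu0⟩ := Submodule.exists_mem_ne_zero_of_ne_bot hker
  refine ⟨ext u, ?_, ?_, ?_⟩
  · have h0 : high d (ext u) = 0 := by
      funext x
      refine sum_eq_zero fun T hT => ?_
      have := congrFun (LinearMap.mem_ker.1 hu) ⟨T, hT⟩
      simp only [A, LinearMap.comp_apply, LinearMap.pi_apply, mobL, LinearMap.coe_mk,
        AddHom.coe_mk, Pi.zero_apply] at this
      rw [this, zero_mul]
    have := sub_high_mem d (ext u)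
    rwa [h0, sub_zero] at this
  · intro h0
    apply hu0
    funext x
    have := congrFun h0 x.1
    simpa [ext, x.2] using this
  · intro x hx
    simp [ext, hx]

end Moebius

lemma codim_le (N : ℕ) : (codim (Fin (20 * N)) (11 * N) : ℝ) ≤ 2 ^ (20 * N) * (91 / 100) ^ N := by
  have h1 : (codim (Fin (20 * N)) (11 * N) : ℝ) * (5 / 4) ^ (11 * N)
      ≤ ∑ T : Finset (Fin (20 * N)), (5 / 4 : ℝ) ^ T.card := by
    unfold codim
    rw [← nsmul_eq_mul, ← sum_const]
    refine (sum_le_sum fun T hT => ?_).trans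
      (sum_le_sum_of_subset_of_nonneg (filter_subset _ _) fun _ _ _ => by positivity)
    exact pow_le_pow_right₀ (by norm_num) (by simpa using (mem_filter.1 hT).2.le)
  have h2 : ∑ T : Finset (Fin (20 * N)), (5 / 4 : ℝ) ^ T.card = (9 / 4) ^ (20 * N) := by
    have := Finset.sum_pow_mul_eq_add_pow (5 / 4 : ℝ) 1 (univ : Finset (Fin (20 * N)))
    simp only [one_pow, mul_one, powerset_univ, card_univ, Fintype.card_fin] at this
    rw [this]; norm_num
  rw [h2] at h1
  have h3 : (0 : ℝ) < (5 / 4) ^ (11 * N) := by positivity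
  have h4 : (9 / 4 : ℝ) ^ (20 * N) ≤ 2 ^ (20 * N) * (91 / 100) ^ N * (5 / 4) ^ (11 * N) := by
    rw [pow_mul, pow_mul, pow_mul, ← mul_pow, ← mul_pow]
    exact pow_le_pow_left₀ (by positivity) (by norm_num) N
  exact le_of_mul_le_mul_right (h1.trans h4) h3

end Crest.Agent.H0085
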