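import Crest.Agent.H0085.Gadget
import Crest.Agent.H0085.CLT

set_option autoImplicit false
open Finset BigOperators Filter

namespace Crest.Agent.H0085

def State (ρ : ℝ) : Prop := ∃ (M : Model) (s : Scheme M), 1 ≤ s.D ∧ ρ * s.D ≤ s.info

lemma State.mono {ρ ρ' : ℝ} (h : ρ' ≤ ρ) : State ρ → State ρ' :=
  fun ⟨M, s, h1, h2⟩ => ⟨M, s, h1, (mul_le_mul_of_nonneg_right h (Nat.cast_nonneg _)).trans h2⟩

lemma clt_scheme {M : Model} (s : Scheme M) (hσ : 0 < s.info) :
    ∀ᶠ m : ℕ in atTop, 58 / 100 * (s.pow m).info ≤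
      E (fun ω => |(s.pow m).y ((s.pow m).π ω)|) ^ 2 := by
  filter_upwards [clt_abs (fun ω => s.y (s.π ω)) s.E_y hσ] with m hm
  rw [Scheme.pow_info]
  exact hm

lemma state_step : ∃ θ : ℝ, 0 < θ ∧ ∀ ρ : ℝ, 0 < ρ → State ρ → State (ρ * (1 + θ)) := by
  obtain ⟨N0, η, hN0, hη, H⟩ := gadget
  have hN0' : (0 : ℝ) < N0 := by exact_mod_cast hN0
  refine ⟨η / (2 * N0), by positivity, ?_⟩
  rintro ρ hρ ⟨M, s, hD, hI⟩
  have hD' : (1 : ℝ) ≤ s.D := by exact_mod_cast hD
  have hσ : 0 < s.info := lt_of_lt_of_le (by positivity) hI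
  have hev : ∀ᶠ m : ℕ in atTop, 2 * N0 / η + 1 ≤ (m : ℝ) :=
    tendsto_natCast_atTop_atTop.eventually_ge_atTop _
  obtain ⟨m, hm1, hm2⟩ := ((clt_scheme s hσ).and hev).exists
  have hm0 : (0 : ℝ) < m := lt_of_lt_of_le (by positivity) hm2
  obtain ⟨M', s', h1, h2⟩ := H _ (s.pow m).coin (s.pow m).coinBit _ (s.pow m).coin_law
    (s.pow m).coin_mean (by rw [Scheme.coin_info]; exact (s.pow m).coin_var)
    (by rw [Scheme.coin_info, Scheme.pow_info]; positivity) (by rw [Scheme.coin_info]; exact hm1)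
  have hcD : (s.pow m).coin.D = 1 + m * s.D := rfl
  rw [hcD] at h1
  rw [Scheme.coin_info, Scheme.pow_info] at h2
  refine ⟨M', s', by rw [h1]; exact Nat.mul_pos hN0 (by omega), le_trans ?_ h2⟩
  rw [h1]
  push_cast
  have e1 : ρ * (1 + η / (2 * N0)) * (N0 * (1 + m * s.D))
      = ρ * ((N0 + η / 2) * (1 + m * s.D)) := by field_simp
  have e2 : N0 + η / 2 ≤ η / 2 * m := by
    have := mul_le_mul_of_nonneg_left hm2 (show 0 ≤ η / 2 by positivity)
    have e : η / 2 * (2 * N0 / η + 1) = N0 + η / 2 := by field_simp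
    linarith
  have e3 : η / 2 * m ≤ η / 2 * (m * s.D) := by
    gcongr; nlinarith
  have e4 : (N0 + η / 2) * (1 + m * s.D) ≤ (N0 + η) * (m * s.D) := by nlinarith
  rw [e1]
  calc _ ≤ ρ * ((N0 + η) * (m * s.D)) := by gcongr
    _ = (N0 + η) * (m * (ρ * s.D)) := by ring
    _ ≤ _ := by gcongr

lemma state_all (ρ : ℝ) : State ρ := by
  obtain ⟨θ, hθ, H⟩ := state_step
  have h1 : ∀ j : ℕ, State ((1 + θ) ^ j) := by
    intro j
    induction j with
    | zero => exact ⟨_, Scheme.base, le_rfl, by rw [Scheme.base_info]; simp [Scheme.base]⟩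
    | succ j ih => rw [pow_succ]; exact H _ (by positivity) ih
  obtain ⟨j, hj⟩ := pow_unbounded_of_one_lt ρ (show 1 < 1 + θ by linarith)
  exact (h1 j).mono hj.le

lemma sg_xor (a b : Bool) : sg (xor a b) = (if a then -1 else 1) * sg b := by
  cases a <;> cases b <;> simp

theorem main (C : ℝ) (hC : 0 < C) :
    ∃ n : ℕ, ∃ f : (Fin n → Bool) → Bool, ∃ d : ℕ,
      (∃ x y, f x ≠ f y) ∧
      (∀ S : Finset (Fin n), d < S.card → ∑ x : Fin n → Bool, sg (f x) * chi S x = 0) ∧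
      C * Real.sqrt d < ∑ i : Fin n, (∑ x : Fin n → Bool, sg (f x) * sg (x i)) / 2 ^ n := by
  classical
  obtain ⟨M₀, s₀, hD₀, hI₀⟩ := state_all (2 * C ^ 2)
  have hD₀' : (1 : ℝ) ≤ s₀.D := by exact_mod_cast hD₀
  have hσ : 0 < s₀.info := lt_of_lt_of_le (by positivity) hI₀
  obtain ⟨m, hm1, hm2⟩ := ((clt_scheme s₀ hσ).and (eventually_ge_atTop 1)).exists
  have hm2' : (1 : ℝ) ≤ m := by exact_mod_cast hm2
  obtain ⟨M, s, hlt⟩ : ∃ (M : Model) (s : Scheme M),
      C * Real.sqrt s.D < E (fun ω => |s.y (s.π ω)|) := by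
    refine ⟨_, s₀.pow m, ?_⟩
    refine lt_of_pow_lt_pow_left₀ 2 (E_nonneg fun _ => abs_nonneg _) (lt_of_lt_of_le ?_ hm1)
    rw [mul_pow, Real.sq_sqrt (Nat.cast_nonneg _), Scheme.pow_info]
    have : (((s₀.pow m).D : ℕ) : ℝ) = m * s₀.D := by
      change ((m * s₀.D : ℕ) : ℝ) = _
      push_cast; rfl
    rw [this]
    have h1 := mul_le_mul_of_nonneg_left hI₀ (show (0 : ℝ) ≤ m by positivity)
    have h2 : 0 < C ^ 2 * (m * s₀.D) := by positivity
    nlinarith
  let g : M.Ω → Bool := fun ω => decide (0 ≤ s.y (s.π ω))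
  let c : M.ι → ℝ := fun i => E (fun ω => sg (g ω) * sg (M.e ω i))
  have hsum : E (fun ω => |s.y (s.π ω)|) ≤ ∑ i, |c i| := by
    have h1 := s.cond (fun a => sg (decide (0 ≤ s.y a)))
    have h2 : ∀ ω, s.y (s.π ω) * sg (decide (0 ≤ s.y (s.π ω))) = |s.y (s.π ω)| := by
      intro ω
      by_cases h : 0 ≤ s.y (s.π ω)
      · simp [h, abs_of_nonneg h]
      · simp [h, abs_of_neg (not_le.1 h)]
    rw [E_congr h2] at h1
    rw [← h1]
    have h3 : ∀ ω, M.S ω * sg (decide (0 ≤ s.y (s.π ω)))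
        = ∑ i, M.w i * (sg (g ω) * sg (M.e ω i)) := by
      intro ω
      rw [Model.S, sum_mul]
      exact sum_congr rfl fun i _ => by simp only [g]; ring
    rw [E_congr h3, E_sum]
    refine sum_le_sum fun i _ => ?_
    rw [E_mul_left]
    refine (le_abs_self _).trans ?_
    rw [abs_mul]
    have := mul_le_mul_of_nonneg_right (M.hw i) (abs_nonneg (c i))
    linarith
  let σ : M.ι ≃ Fin (Fintype.card M.ι) := Fintype.equivFin M.ι
  let fl : M.ι → Bool := fun i => decide (c i < 0)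
  let Θ : (Fin (Fintype.card M.ι) → Bool) ≃ (M.ι → Bool) :=
    { toFun := fun x i => xor (fl i) (x (σ i))
      invFun := fun x j => xor (fl (σ.symm j)) (x (σ.symm j))
      left_inv := fun x => by funext j; simp
      right_inv := fun x => by funext i; simp }
  have hcoef : ∀ j, (∑ x : Fin (Fintype.card M.ι) → Bool,
      sg (g (M.e.symm (Θ x))) * sg (x j)) / 2 ^ Fintype.card M.ι = |c (σ.symm j)| := by
    intro j
    have h1 : (∑ x : Fin (Fintype.card M.ι) → Bool,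
        sg (g (M.e.symm (Θ x))) * sg (x j)) / 2 ^ Fintype.card M.ι
        = E (fun x : Fin (Fintype.card M.ι) → Bool => sg (g (M.e.symm (Θ x))) * sg (x j)) := by
      simp [E]
    rw [h1, ← E_equiv (M.e.trans Θ.symm)]
    have h2 : ∀ ω, sg (g (M.e.symm (Θ ((M.e.trans Θ.symm) ω)))) * sg ((M.e.trans Θ.symm) ω j)
        = (if fl (σ.symm j) then -1 else 1) * (sg (g ω) * sg (M.e ω (σ.symm j))) := by
      intro ω
      have : (M.e.trans Θ.symm) ω j = xor (fl (σ.symm j)) (M.e ω (σ.symm j)) := rfl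
      rw [this, sg_xor]
      simp only [Equiv.trans_apply, Equiv.apply_symm_apply, Equiv.symm_apply_apply]
      ring
    rw [E_congr h2, E_mul_left]
    change _ * c (σ.symm j) = _
    by_cases h : c (σ.symm j) < 0
    · simp [fl, h, abs_of_neg h]
    · simp [fl, h, abs_of_nonneg (not_lt.1 h)]
  have hfin : C * Real.sqrt s.D < ∑ j, (∑ x : Fin (Fintype.card M.ι) → Bool,
      sg (g (M.e.symm (Θ x))) * sg (x j)) / 2 ^ Fintype.card M.ι := by
    simp only [hcoef]
    rw [Equiv.sum_comp σ.symm (fun i => |c i|)]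
    exact hlt.trans_le hsum
  refine ⟨Fintype.card M.ι, fun x => g (M.e.symm (Θ x)), s.D, ?_, ?_, hfin⟩
  · by_contra hcon
    push Not at hcon
    have h0 : ∀ j, ∑ x : Fin (Fintype.card M.ι) → Bool,
        sg (g (M.e.symm (Θ x))) * sg (x j) = 0 := by
      intro j
      refine sum_eq_zero_of_flip j _ fun x => ?_
      rw [hcon (flip j x) x, flip_self, sg_not]; ring
    simp only [h0, zero_div, sum_const_zero] at hfin
    have : 0 ≤ C * Real.sqrt s.D := by positivity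
    linarith
  · intro S hS
    refine fourier_eq_zero (d := s.D) ?_ S hS
    exact comp_mem_Low σ (fun i b => xor (fl i) b)
      (Model.mem_Low.1 (s.deg fun a => sg (decide (0 ≤ s.y a))))

end Crest.Agent.H0085
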